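import Vale.Agent.P225.Full.Control.Weights

/-!
# P225 control: one shell

A space of operators on harmonic polynomials of degree `l` which contains the identity, is closed
under commutators, stable under the rotations and one product of two weights, and contains the
seed `h ↦ coeff_top h • X top`, is everything.
-/

noncomputable section

namespace Vale.Agent.P225.Full.Control

open MvPolynomial

variable {M : ℕ}

/-- The rotation generator as an element of the endomorphism ring. -/
abbrev opR (l : ℕ) (i j : Var M) : Module.End ℂ (Hc M l) := rotH l i j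

/-- The weight operator as an element of the endomorphism ring. -/
abbrev opD (l : ℕ) (a : Fin M) : Module.End ℂ (Hc M l) := rotH l (Sum.inl a) (Sum.inr a)

theorem opR_comm (l : ℕ) (i j k q : Var M) :
    opR l i j * opR l k q - opR l k q * opR l i j =
      pair j k • opR l i q - pair i k • opR l j q - pair j q • opR l i k +
        pair i q • opR l j k :=
  LinearMap.ext fun f => Subtype.ext (rot_comm i j k q (f : Pc M))

theorem opR_antisymm (l : ℕ) (i j : Var M) : opR l i j = -opR l j i :=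
  LinearMap.ext fun f => Subtype.ext (by
    show rot i j (f : Pc M) = -rot j i (f : Pc M)
    simp [rot_apply])

theorem opR_self (l : ℕ) (i : Var M) : opR l i i = 0 :=
  LinearMap.ext fun f => Subtype.ext (by
    show rot i i (f : Pc M) = 0
    simp [rot_apply])

/-- The weight of a variable in a coordinate. -/
def wv (a : Fin M) (k : Var M) : ℂ :=
  if k = Sum.inl a then 1 else if k = Sum.inr a then -1 else 0

theorem opD_comm (l : ℕ) (a : Fin M) (k q : Var M) :
    opD l a * opR l k q = opR l k q * opD l a + (wv a k + wv a q) • opR l k q := by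
  have pa : ∀ x : Var M, pair (Sum.inr a) x = if x = Sum.inl a then 1 else 0 := fun x => by
    simp [pair, bar, eq_comm]
  have pb : ∀ x : Var M, pair (Sum.inl a) x = if x = Sum.inr a then 1 else 0 := fun x => by
    simp [pair, bar, eq_comm]
  have h1 : ∀ x y : Var M, pair (Sum.inr a) x • opR l (Sum.inl a) y -
      pair (Sum.inl a) x • opR l (Sum.inr a) y = wv a x • opR l x y := fun x y => by
    rw [pa, pb, wv]
    split_ifs with h h' h'
    · subst h; simp at h'
    · subst h; module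
    · subst h'; module
    · module
  have h := opR_comm l (Sum.inl a) (Sum.inr a) k q
  have h2 := h1 q k
  rw [h1 k q] at h
  rw [opR_antisymm l q k] at h2
  linear_combination (norm := module) h - h2

variable [NeZero M]

/-- The highest vector of a shell. -/
def eT (M l : ℕ) [NeZero M] : Hc M l := ⟨topPoly M l, topPoly_mem l⟩

/-- The highest coefficient. -/
def phiT (M l : ℕ) [NeZero M] : Hc M l →ₗ[ℂ] ℂ where
  toFun h := coeff (topExp M l) (h : Pc M)
  map_add' _ _ := coeff_add _ _ _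
  map_smul' _ _ := coeff_smul _ _ _

theorem phiT_eT (l : ℕ) : phiT M l (eT M l) = 1 := by
  simp [phiT, eT, topPoly]

theorem phiT_opR {l : ℕ} {i j : Var M} (hi : i ≠ Sum.inl 0) (hj : j ≠ Sum.inl 0)
    (h : Hc M l) : phiT M l (opR l i j h) = 0 := by
  classical
  show coeff (topExp M l) (rot i j (h : Pc M)) = 0
  have hs : ∀ k : Var M, k ≠ Sum.inl 0 → k ∉ (topExp M l).support := fun k hk => by
    simp [topExp, Finsupp.single_eq_of_ne hk]
  rw [rot_apply, coeff_sub, coeff_X_mul', coeff_X_mul', if_neg (hs i hi), if_neg (hs j hj),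
    sub_zero]

theorem phiT_opD {l : ℕ} (a : Fin M) (h : Hc M l) :
    phiT M l (opD l a h) = (mu a (topExp M l) : ℂ) * phiT M l h :=
  coeff_dia a (h : Pc M) (topExp M l)

theorem mu_topExp (l : ℕ) (a : Fin M) : mu a (topExp M l) = if a = 0 then (l : ℤ) else 0 := by
  simp [mu, topExp, Finsupp.single_apply, eq_comm (a := a)]

theorem opR_eT {l : ℕ} {i j : Var M} (hi : i ≠ Sum.inr 0) (hj : j ≠ Sum.inr 0) :
    opR l i j (eT M l) = 0 := by
  refine Subtype.ext ?_
  show rot i j (topPoly M l) = 0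
  have hs : ∀ k : Var M, k ≠ Sum.inr 0 → pderiv (bar k) (topPoly M l) = 0 := fun k hk => by
    have hk' : bar k ≠ Sum.inl 0 := fun e => hk (by rw [← bar_bar k, e]; rfl)
    rw [topPoly, pderiv_monomial]
    simp [topExp, Finsupp.single_eq_of_ne hk']
  rw [rot_apply, hs i hi, hs j hj, mul_zero, mul_zero, sub_zero]

theorem opD_eT (l : ℕ) (a : Fin M) :
    opD l a (eT M l) = (mu a (topExp M l) : ℂ) • eT M l := by
  refine Subtype.ext (MvPolynomial.ext _ _ fun s => ?_)
  show coeff s (dia a (topPoly M l)) = coeff s ((mu a (topExp M l) : ℂ) • topPoly M l)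
  rw [coeff_dia, coeff_smul, smul_eq_mul, topPoly, coeff_monomial]
  by_cases h : topExp M l = s
  · rw [← h]
  · simp [h]

/-- A rotation of two lowering-type variables moves one elementary excitation to another. -/
theorem opR_shift {l : ℕ} {b j : Var M} (hb : b ≠ Sum.inl 0) (hb' : b ≠ Sum.inr 0)
    (hj1 : j ≠ Sum.inl 0) (hj2 : j ≠ Sum.inr 0) (hne : bar b ≠ j) :
    opR l j (bar b) (opR l (Sum.inr 0) b (eT M l)) = opR l (Sum.inr 0) j (eT M l) := by
  have hbb : bar b ≠ Sum.inr 0 := fun e => hb (by rw [← bar_bar b, e]; rfl)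
  have p1 : pair (bar b) (Sum.inr 0) = 0 := by
    simp only [pair, bar_bar]
    exact if_neg hb'
  have p2 : pair j (Sum.inr 0) = 0 := by
    simp only [pair]
    exact if_neg fun e => hj1 (by rw [← bar_bar j, e]; rfl)
  have p3 : pair (bar b) b = 1 := by simp [pair, bar_bar]
  have p4 : pair j b = 0 := by
    simp only [pair]
    exact if_neg fun e => hne (by rw [← e, bar_bar])
  have h := LinearMap.congr_fun (opR_comm l j (bar b) (Sum.inr 0) b) (eT M l)
  simp only [LinearMap.sub_apply, LinearMap.add_apply, LinearMap.smul_apply, Module.End.mul_apply,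
    p1, p2, p3, p4, zero_smul, one_smul, LinearMap.zero_apply, opR_eT hj2 hbb, map_zero, sub_zero, zero_sub,
    add_zero] at h
  rw [h, opR_antisymm l (Sum.inr 0) j, LinearMap.neg_apply]

/-- The seed vector `X top`, an excitation in two coordinates. -/
def vTwo (l : ℕ) (b c : Fin M) : Hc M l :=
  opR l (Sum.inr 0) (Sum.inl b) (opR l (Sum.inr 0) (Sum.inl c) (eT M l))

theorem fin_facts (hM : 4 ≤ M) : (1 : Fin M) ≠ 0 ∧ (2 : Fin M) ≠ 0 ∧ (3 : Fin M) ≠ 0 ∧
    (1 : Fin M) ≠ 2 ∧ (1 : Fin M) ≠ 3 ∧ (2 : Fin M) ≠ 3 := by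
  obtain ⟨k, rfl⟩ : ∃ k, M = k + 4 := ⟨M - 4, by omega⟩
  simp [Fin.ext_iff, Fin.val_ofNat, Nat.mod_eq_of_lt]

/-- One shell is completely generated. -/
theorem block_top (hM : 4 ≤ M) {l : ℕ} (hl : 2 ≤ l) (I : Submodule ℂ (Module.End ℂ (Hc M l)))
    (h1 : (1 : Module.End ℂ (Hc M l)) ∈ I)
    (hbr : ∀ S ∈ I, ∀ T ∈ I, S * T - T * S ∈ I)
    (hrot : ∀ i j, ∀ T ∈ I, opR l i j * T - T * opR l i j ∈ I)
    (hDD : ∀ T ∈ I, opD l 0 * opD l 1 * T - T * (opD l 0 * opD l 1) ∈ I)
    (hseed : (phiT M l).smulRight (vTwo l 1 2) ∈ I) : I = ⊤ := by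
  classical
  obtain ⟨h10, h20, -, h12, -, -⟩ := fin_facts hM
  set e := eT M l with he_def
  set φ := phiT M l with hφ
  have hφe : φ e = 1 := phiT_eT l
  have hD0e : opD l 0 e = (l : ℂ) • e := by simp [e, opD_eT, mu_topExp]
  have hD1e : opD l 1 e = 0 := by simp [e, opD_eT, mu_topExp, h10]
  have hφD0 : ∀ h, φ (opD l 0 h) = (l : ℂ) * φ h := fun h => by
    simp [φ, phiT_opD, mu_topExp]
  have hφD1 : ∀ h, φ (opD l 1 h) = 0 := fun h => by simp [φ, phiT_opD, mu_topExp, h10]
  -- brackets of rank one operators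
  have ad_rk : ∀ (A : Module.End ℂ (Hc M l)) (χ : Hc M l →ₗ[ℂ] ℂ) (v : Hc M l),
      A * χ.smulRight v - χ.smulRight v * A = χ.smulRight (A v) - (χ.comp A).smulRight v :=
    fun A χ v => LinearMap.ext fun h => by simp
  set A := opR l (Sum.inl (0 : Fin M)) (Sum.inr 1) with hA
  have hAe : A e = 0 := opR_eT (by simp) (by simp [h10])
  set u1 := opR l (Sum.inr 0) (Sum.inl (1 : Fin M)) e with hu1
  set u2 := opR l (Sum.inr 0) (Sum.inl (2 : Fin M)) e with hu2
  have wD : ∀ (a : Fin M) (k q : Var M) (v : Hc M l) (c : ℂ), opD l a v = c • v →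
      opD l a (opR l k q v) = (c + wv a k + wv a q) • opR l k q v := fun a k q v c hv => by
    have := LinearMap.congr_fun (opD_comm l a k q) v
    simp only [Module.End.mul_apply, LinearMap.add_apply, LinearMap.smul_apply, hv, map_smul]
      at this
    rw [this]; module
  have h02 : (0 : Fin M) ≠ 2 := Ne.symm h20
  have h01 : (0 : Fin M) ≠ 1 := Ne.symm h10
  have hD0u1 : opD l 0 u1 = ((l : ℂ) - 1) • u1 := by
    rw [hu1, wD 0 _ _ e _ hD0e]
    simp [wv, h10, sub_eq_add_neg]
  have hD1u1 : opD l 1 u1 = u1 := by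
    rw [hu1, wD 1 _ _ e 0 (by simpa using hD1e)]
    simp [wv, h01]
  have hD0u2 : opD l 0 u2 = ((l : ℂ) - 1) • u2 := by
    rw [hu2, wD 0 _ _ e _ hD0e]
    simp [wv, h20, sub_eq_add_neg]
  have hD1u2 : opD l 1 u2 = 0 := by
    rw [hu2, wD 1 _ _ e 0 (by simpa using hD1e)]
    simp [wv, h01, Ne.symm h12]
  set v12 := vTwo l (1 : Fin M) 2 with hv12
  have hv12' : v12 = opR l (Sum.inr 0) (Sum.inl 1) u2 := rfl
  have hD0v : opD l 0 v12 = ((l : ℂ) - 2) • v12 := by
    rw [hv12', wD 0 _ _ u2 _ hD0u2]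
    congr 1
    simp [wv, h10]; ring
  have hD1v : opD l 1 v12 = v12 := by
    rw [hv12', wD 1 _ _ u2 0 (by simpa using hD1u2)]
    simp [wv, h01]
  have hAR1 : A * opR l (Sum.inr 0) (Sum.inl 1) - opR l (Sum.inr 0) (Sum.inl 1) * A =
      opD l 1 - opD l 0 := by
    rw [hA, opR_comm, opR_antisymm l (Sum.inr (1 : Fin M)) (Sum.inl 1)]
    simp [pair, bar, h10, h01]
  have hAR1v : ∀ v, A (opR l (Sum.inr 0) (Sum.inl 1) v) =
      opR l (Sum.inr 0) (Sum.inl 1) (A v) + (opD l 1 v - opD l 0 v) := fun v => by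
    have := LinearMap.congr_fun hAR1 v
    simp only [LinearMap.sub_apply, Module.End.mul_apply] at this
    rw [← this]; abel
  have hAu1 : A u1 = -((l : ℂ) • e) := by
    rw [hu1, hAR1v, hAe, map_zero, hD1e, hD0e]; abel
  have hAu2 : A u2 = 0 := by
    have := LinearMap.congr_fun (opR_comm l (Sum.inl (0 : Fin M)) (Sum.inr 1) (Sum.inr 0)
      (Sum.inl 2)) e
    simp [pair, bar, h01, h12, h20, h02, Ne.symm h12, ← hA, hAe, ← hu2,
      opR_eT (l := l) (i := Sum.inr (1 : Fin M)) (j := Sum.inl (2 : Fin M))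
        (by simp [h10]) (by simp)] at this
    simpa [e, opR_eT (l := l) (i := Sum.inr (1 : Fin M)) (j := Sum.inl (2 : Fin M))
        (by simp [h10]) (by simp)] using this
  have hAv : A v12 = -((l : ℂ) - 1) • u2 := by
    rw [hv12', hAR1v, hAu2, map_zero, hD1u2, hD0u2]
    module
  have hA0 : ∀ h, A (opD l 0 h) = opD l 0 (A h) - A h := fun h => by
    have := LinearMap.congr_fun (opD_comm l 0 (Sum.inl (0 : Fin M)) (Sum.inr 1)) h
    simp [wv, h10, h01] at this
    rw [hA]
    rw [this]; abel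
  have hA1 : ∀ h, A (opD l 1 h) = opD l 1 (A h) + A h := fun h => by
    have := LinearMap.congr_fun (opD_comm l 1 (Sum.inl (0 : Fin M)) (Sum.inr 1)) h
    simp [wv, h10, h01] at this
    rw [hA]
    rw [this]; abel
  set DD := opD l 0 * opD l (1 : Fin M) with hDDdef
  have hφDD : φ.comp DD = 0 := LinearMap.ext fun h => by simp [DD, hφD0, hφD1]
  set ψ := φ.comp A with hψ
  have hψDD : ψ.comp DD = ((l : ℂ) - 1) • ψ := LinearMap.ext fun h => by
    simp [ψ, DD, hA0, hA1, hφD0, hφD1]
    ring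
  set χ := ψ.comp A with hχ
  have hχDD : χ.comp DD = (2 * ((l : ℂ) - 2)) • χ := LinearMap.ext fun h => by
    simp [χ, ψ, DD, hA0, hA1, hφD0, hφD1]
    ring
  -- the first elementary excitation
  have key1 : φ.smulRight u2 ∈ I := by
    have hZ := hrot (Sum.inl (0 : Fin M)) (Sum.inr 1) _ hseed
    rw [← hA, ad_rk, hAv, ← hψ] at hZ
    have hZ' := I.add_mem hZ (hDD _ hZ)
    have hne : -((l : ℂ) - 1) ≠ 0 := by
      have : (2 : ℝ) ≤ l := by exact_mod_cast hl
      rw [neg_ne_zero]
      exact_mod_cast (show (l : ℝ) - 1 ≠ 0 by linarith)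
    refine (Submodule.smul_mem_iff I hne).1 (Eq.mp (congrArg (· ∈ I) ?_) hZ')
    refine LinearMap.ext fun h => ?_
    have e1 := LinearMap.congr_fun hψDD h
    have e0 := LinearMap.congr_fun hφDD h
    simp [DD, hD1u2, hD1v, hD0v] at e1 e0 ⊢
    rw [e0, e1]
    module
  -- all excitations
  let U : Submodule ℂ (Hc M l) :=
    LinearMap.ker φ ⊓ I.comap (LinearMap.smulRightₗ φ)
  have memU : ∀ v, v ∈ U ↔ φ v = 0 ∧ φ.smulRight v ∈ I := fun v => Iff.rfl
  have hUstab : ∀ i j : Var M, i ≠ Sum.inl 0 → j ≠ Sum.inl 0 → ∀ v ∈ U, opR l i j v ∈ U := by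
    intro i j hi hj v hv
    refine (memU _).2 ⟨phiT_opR hi hj v, ?_⟩
    have := hrot i j _ ((memU v).1 hv).2
    rwa [ad_rk, show φ.comp (opR l i j) = 0 from LinearMap.ext fun h => phiT_opR hi hj h,
      show (0 : Hc M l →ₗ[ℂ] ℂ).smulRight v = 0 from LinearMap.ext fun h => by simp,
      sub_zero] at this
  have hu2U : u2 ∈ U := (memU _).2 ⟨phiT_opR (by simp) (by simp [h20]) e, key1⟩
  have hexc : ∀ j : Var M, j ≠ Sum.inl 0 → j ≠ Sum.inr 0 → opR l (Sum.inr 0) j e ∈ U := by
    have step : ∀ b j : Var M, b ≠ Sum.inl 0 → b ≠ Sum.inr 0 → j ≠ Sum.inl 0 → j ≠ Sum.inr 0 →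
        bar b ≠ j → opR l (Sum.inr 0) b e ∈ U → opR l (Sum.inr 0) j e ∈ U := by
      intro b j hb hb' hj hj' hne hmem
      rw [← opR_shift hb hb' hj hj' hne]
      exact hUstab _ _ hj (fun e => hb' (by rw [← bar_bar b, e]; rfl)) _ hmem
    intro j hj hj'
    by_cases hc : j = Sum.inr 2
    · subst hc
      refine step (Sum.inl 1) _ (by simp [h10]) (by simp) (by simp) (by simp [h20])
        (by simp [bar, h12]) ?_
      exact step (Sum.inl 2) _ (by simp [h20]) (by simp) (by simp [h10]) (by simp)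
        (by simp [bar]) hu2U
    · exact step (Sum.inl 2) _ (by simp [h20]) (by simp) hj hj'
        (fun e => hc (by rw [← e]; rfl)) hu2U
  have hφv : ∀ v, φ v = 0 → φ.smulRight v ∈ I := by
    have htop : (ℂ ∙ e) ⊔ U = ⊤ := by
      refine eq_top_of_stable (by omega) _ ?_ (Submodule.mem_sup_left
        (Submodule.mem_span_singleton_self e))
      intro i j hi hj f hf
      obtain ⟨x, hx, y, hy, rfl⟩ := Submodule.mem_sup.1 hf
      obtain ⟨c, rfl⟩ := Submodule.mem_span_singleton.1 hx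
      rw [map_add, map_smul]
      refine Submodule.add_mem _ (Submodule.smul_mem _ _ ?_)
        (Submodule.mem_sup_right (hUstab i j hi hj y hy))
      refine Submodule.mem_sup_right ?_
      show opR l i j e ∈ U
      by_cases hi' : i = Sum.inr 0
      · subst hi'
        by_cases hj' : j = Sum.inr 0
        · subst hj'; rw [opR_self]; exact U.zero_mem
        · exact hexc j hj hj'
      · by_cases hj' : j = Sum.inr 0
        · subst hj'
          rw [opR_antisymm, LinearMap.neg_apply]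
          exact U.neg_mem (hexc i hi hi')
        · rw [opR_eT hi' hj']; exact U.zero_mem
    intro v hv
    obtain ⟨x, hx, y, hy, rfl⟩ := Submodule.mem_sup.1 (htop ▸ Submodule.mem_top : v ∈ (ℂ ∙ e) ⊔ U)
    obtain ⟨c, rfl⟩ := Submodule.mem_span_singleton.1 hx
    rw [map_add, map_smul, hφe, ((memU y).1 hy).1, smul_eq_mul, mul_one, add_zero] at hv
    rw [hv, zero_smul, zero_add]
    exact ((memU y).1 hy).2
  -- the transposed excitations
  have hψe : ψ e = 0 := by simp [ψ, hAe]
  have key2 : ψ.smulRight e ∈ I := by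
    have hY := hrot (Sum.inl (0 : Fin M)) (Sum.inr 1) _
      (hrot (Sum.inl (0 : Fin M)) (Sum.inr 1) _
        (hφv u1 (phiT_opR (by simp) (by simp [h10]) e)))
    have hY2 := I.add_mem (hDD _ hY) (I.smul_mem ((l : ℂ) - 3) hY)
    have hne : -4 * (l : ℂ) ≠ 0 := by
      have : (l : ℂ) ≠ 0 := Nat.cast_ne_zero.2 (by omega)
      simp [this]
    refine (Submodule.smul_mem_iff I hne).1 (Eq.mp (congrArg (· ∈ I) ?_) hY2)
    rw [← hA]
    refine LinearMap.ext fun h => ?_
    have e1 := LinearMap.congr_fun hψDD h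
    have e0 := LinearMap.congr_fun hφDD h
    have e2 := LinearMap.congr_fun hχDD h
    simp [χ, ψ, DD] at e0 e1 e2
    simp [ψ, DD, hAu1, hAe, hD0u1, hD1u1, hD0e, hD1e, e0, e1, e2]
    module
  let Ψ : Submodule ℂ (Module.Dual ℂ (Hc M l)) :=
    LinearMap.ker (LinearMap.applyₗ e) ⊓ I.comap (LinearMap.smulRightₗ.flip e)
  have memΨ : ∀ f : Module.Dual ℂ (Hc M l), f ∈ Ψ ↔ f e = 0 ∧ f.smulRight e ∈ I :=
    fun f => Iff.rfl
  have hΨstab : ∀ i j : Var M, i ≠ Sum.inr 0 → j ≠ Sum.inr 0 →
      ∀ f ∈ Ψ, f.comp (opR l i j) ∈ Ψ := by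
    intro i j hi hj f hf
    refine (memΨ _).2 ⟨by simp [e, opR_eT hi hj], ?_⟩
    have := hrot i j _ ((memΨ f).1 hf).2
    rw [ad_rk, opR_eT hi hj, show f.smulRight (0 : Hc M l) = 0 from
      LinearMap.ext fun h => by simp, zero_sub] at this
    simpa using this
  have hψΨ : ψ ∈ Ψ := (memΨ _).2 ⟨hψe, key2⟩
  have hexc' : ∀ j : Var M, j ≠ Sum.inl 0 → j ≠ Sum.inr 0 →
      φ.comp (opR l (Sum.inl 0) j) ∈ Ψ := by
    have step : ∀ b j : Var M, b ≠ Sum.inl 0 → b ≠ Sum.inr 0 → j ≠ Sum.inl 0 → j ≠ Sum.inr 0 →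
        bar b ≠ j → φ.comp (opR l (Sum.inl 0) b) ∈ Ψ → φ.comp (opR l (Sum.inl 0) j) ∈ Ψ := by
      intro b j hb hb' hj hj' hne hmem
      have hbb : bar b ≠ Sum.inl 0 := fun e => hb' (by rw [← bar_bar b, e]; rfl)
      have hbb' : bar b ≠ Sum.inr 0 := fun e => hb (by rw [← bar_bar b, e]; rfl)
      refine Eq.mp (congrArg (· ∈ Ψ) (LinearMap.ext fun h => ?_))
        (hΨstab (bar b) j hbb' hj' _ hmem)
      have p1 : pair b (bar b) = 1 := by simp [pair]
      have p2 : pair (Sum.inl 0) (bar b) = 0 := by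
        simp only [pair]; exact if_neg fun e => hbb' (e.symm.trans rfl)
      have p3 : pair b j = 0 := by simp only [pair]; exact if_neg hne
      have p4 : pair (Sum.inl 0) j = 0 := by
        simp only [pair]; exact if_neg fun e => hj' (e.symm.trans rfl)
      have := congrArg φ (LinearMap.congr_fun (opR_comm l (Sum.inl 0) b (bar b) j) h)
      simpa [p1, p2, p3, p4, φ, phiT_opR hbb hj] using this
    intro j hj hj'
    by_cases hc : j = Sum.inl 1
    · subst hc
      refine step (Sum.inr 2) _ (by simp) (by simp [h20]) (by simp [h10]) (by simp)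
        (by simp [bar, Ne.symm h12]) ?_
      exact step (Sum.inr 1) _ (by simp) (by simp [h10]) (by simp) (by simp [h20])
        (by simp [bar]) hψΨ
    · exact step (Sum.inr 1) _ (by simp) (by simp [h10]) hj hj'
        (fun e => hc (by rw [← e]; rfl)) hψΨ
  have hΦ : Ψ ⊔ (ℂ ∙ φ) = (⊤ : Submodule ℂ (Module.Dual ℂ (Hc M l))) := by
    have hco : (Ψ ⊔ (ℂ ∙ φ)).dualCoannihilator = ⊥ := by
      by_contra hne
      have hmem : ∀ v, v ∈ (Ψ ⊔ (ℂ ∙ φ)).dualCoannihilator → φ v = 0 ∧ ∀ f ∈ Ψ, f v = 0 :=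
        fun v hv => ⟨(Submodule.mem_dualCoannihilator v).1 hv φ
            (Submodule.mem_sup_right (Submodule.mem_span_singleton_self φ)),
          fun f hf => (Submodule.mem_dualCoannihilator v).1 hv f (Submodule.mem_sup_left hf)⟩
      have htop := top_mem_of_stable (by omega) _ (fun j hj hj' v hv => ?_) hne
      · have h0 : φ e = 0 := (hmem _ htop).1
        rw [hφe] at h0
        exact one_ne_zero h0
      · refine (Submodule.mem_dualCoannihilator _).2 fun f hf => ?_
        obtain ⟨f1, hf1, f2, hf2, rfl⟩ := Submodule.mem_sup.1 hf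
        obtain ⟨c, rfl⟩ := Submodule.mem_span_singleton.1 hf2
        have a1 := (hmem v hv).2 _ (hΨstab (Sum.inl 0) j (by simp) hj' _ hf1)
        have a2 := (hmem v hv).2 _ (hexc' j hj hj')
        simp only [LinearMap.comp_apply] at a1 a2
        simp [a1, a2]
    have := Subspace.dualCoannihilator_dualAnnihilator_eq (W := Ψ ⊔ (ℂ ∙ φ))
    rw [hco, Submodule.dualAnnihilator_bot] at this
    exact this.symm
  -- every rank one operator, up to its trace
  set P := φ.smulRight e with hP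
  have hrk : ∀ (f : Module.Dual ℂ (Hc M l)) (v : Hc M l), f.smulRight v - f v • P ∈ I := by
    intro f v
    obtain ⟨g, hg, f2, hf2, rfl⟩ := Submodule.mem_sup.1 (hΦ ▸ Submodule.mem_top : f ∈ Ψ ⊔ (ℂ ∙ φ))
    obtain ⟨a, rfl⟩ := Submodule.mem_span_singleton.1 hf2
    obtain ⟨hge, hgI⟩ := (memΨ g).1 hg
    set b := φ v with hb
    set v0 := v - b • e with hv0
    have hv0φ : φ v0 = 0 := by simp [v0, b, hφe]
    have hI0 := hφv v0 hv0φ
    have hbrI := hbr _ hgI _ hI0
    have hmem := I.add_mem (I.add_mem (I.smul_mem a hI0) (I.smul_mem b hgI)) (I.neg_mem hbrI)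
    refine Eq.mp (congrArg (· ∈ I) ?_) hmem
    refine LinearMap.ext fun h => ?_
    simp [v0, P, hφe, hge, hv0φ, b]
    module
  have hTr : ∀ T : Module.End ℂ (Hc M l), T - LinearMap.trace ℂ _ T • P ∈ I := by
    intro T
    let bs := Module.finBasis ℂ (Hc M l)
    have hT : T = ∑ k, (bs.coord k).smulRight (T (bs k)) := LinearMap.ext fun h => by
      rw [LinearMap.sum_apply]
      simp only [LinearMap.smulRight_apply, Module.Basis.coord_apply]
      conv_lhs => rw [← bs.sum_repr h, map_sum]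
      exact Finset.sum_congr rfl fun k _ => map_smul _ _ _
    rw [hT, map_sum, Finset.sum_smul, ← Finset.sum_sub_distrib]
    refine I.sum_mem fun k _ => ?_
    rw [LinearMap.trace_smulRight]
    exact hrk _ _
  have hPI : P ∈ I := by
    have := I.sub_mem h1 (hTr 1)
    rw [sub_sub_cancel, LinearMap.trace_one] at this
    refine (Submodule.smul_mem_iff I ?_).1 this
    have : Nontrivial (Hc M l) := ⟨e, 0, fun h => by simp [h] at hφe⟩
    exact Nat.cast_ne_zero.2 (Nat.pos_iff_ne_zero.1 Module.finrank_pos)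
  rw [eq_top_iff]
  intro T _
  have := I.add_mem (hTr T) (I.smul_mem (LinearMap.trace ℂ _ T) hPI)
  rwa [sub_add_cancel] at this

end Vale.Agent.P225.Full.Control
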