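import Vale.Agent.P225.Full.Control.Weights
import Vale.Agent.P225.Full.Endgame
import Vale.Agent.P225.Full.Shells

/-!
# P225 control: complex coordinates

Real polynomials in `x k` are written in the variables `z a = x (2 a) + i x (2 a + 1)` and
`w a = x (2 a) - i x (2 a + 1)`.  The Laplacian and the plane rotations intertwine, and every
complex harmonic polynomial is uniquely a sum of a real one and `i` times a real one.
-/

noncomputable section

namespace Vale.Agent.P225.Full.Control

open MvPolynomial

variable {m : ℕ}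

/-- The first real variable of a coordinate. -/
def evI (a : Fin (m + 1)) : Fin (2 * m + 2) := ⟨2 * a.val, by omega⟩

/-- The second real variable of a coordinate. -/
def odI (a : Fin (m + 1)) : Fin (2 * m + 2) := ⟨2 * a.val + 1, by omega⟩

/-- The coordinate of a real variable. -/
def half (k : Fin (2 * m + 2)) : Fin (m + 1) := ⟨k.val / 2, by omega⟩

theorem half_evI (a : Fin (m + 1)) : half (evI a) = a := Fin.ext (by simp [half, evI])

theorem half_odI (a : Fin (m + 1)) : half (odI a) = a := Fin.ext (by simp [half, odI]; omega)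

theorem evI_or_odI (k : Fin (2 * m + 2)) : k = evI (half k) ∨ k = odI (half k) := by
  rcases Nat.mod_two_eq_zero_or_one k.val with h | h
  · exact Or.inl (Fin.ext (by simp [evI, half]; omega))
  · exact Or.inr (Fin.ext (by simp [odI, half]; omega))

theorem evI_inj {a b : Fin (m + 1)} : evI a = evI b ↔ a = b := by
  simp [evI, Fin.ext_iff]

theorem odI_inj {a b : Fin (m + 1)} : odI a = odI b ↔ a = b := by
  simp [odI, Fin.ext_iff]

theorem evI_ne_odI (a b : Fin (m + 1)) : evI a ≠ odI b := by
  simp [evI, odI, Fin.ext_iff]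
  omega

/-- The coordinate of a complex variable. -/
abbrev cidx (i : Var (m + 1)) : Fin (m + 1) := Sum.elim id id i

/-- The coefficient of the second real variable in a complex one. -/
def cI (i : Var (m + 1)) : ℂ := Sum.elim (fun _ => Complex.I) (fun _ => -Complex.I) i

/-- The image of a real variable. -/
def img (k : Fin (2 * m + 2)) : Pc (m + 1) :=
  if k.val % 2 = 0 then (1 / 2 : ℂ) • (X (Sum.inl (half k)) + X (Sum.inr (half k)))
  else (-Complex.I / 2) • (X (Sum.inl (half k)) - X (Sum.inr (half k)))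

theorem img_evI (a : Fin (m + 1)) :
    img (evI a) = (1 / 2 : ℂ) • (X (Sum.inl a) + X (Sum.inr a)) := by
  rw [img, if_pos (by simp [evI]), half_evI]

theorem img_odI (a : Fin (m + 1)) :
    img (odI a) = (-Complex.I / 2) • (X (Sum.inl a) - X (Sum.inr a)) := by
  rw [img, if_neg (by simp [odI]), half_odI]

/-- Real polynomials in complex coordinates. -/
def iota (m : ℕ) : Poly (2 * m + 2) →ₐ[ℝ] Pc (m + 1) := aeval img

theorem iota_X (k : Fin (2 * m + 2)) : iota m (X k) = img k := aeval_X _ _

theorem iota_C (r : ℝ) : iota m (C r) = C (r : ℂ) := by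
  rw [iota, aeval_C]
  rfl

theorem iota_smul (r : ℝ) (p : Poly (2 * m + 2)) : iota m (r • p) = (r : ℂ) • iota m p := by
  rw [smul_eq_C_mul, map_mul, iota_C, smul_eq_C_mul]

theorem X_eq_iota (i : Var (m + 1)) :
    (X i : Pc (m + 1)) = iota m (X (evI (cidx i))) + cI i • iota m (X (odI (cidx i))) := by
  rw [iota_X, iota_X, img_evI, img_odI, smul_smul]
  rcases i with a | a <;> simp only [cidx, cI, Sum.elim_inl, Sum.elim_inr, id_eq]
  · rw [show Complex.I * (-Complex.I / 2) = (1 / 2 : ℂ) by
      rw [mul_div_assoc', mul_neg, Complex.I_mul_I, neg_neg]]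
    module
  · rw [show -Complex.I * (-Complex.I / 2) = (-1 / 2 : ℂ) by
      rw [mul_div_assoc', neg_mul, mul_neg, neg_neg, Complex.I_mul_I]]
    module

theorem X_mul_iota (i : Var (m + 1)) (g : Poly (2 * m + 2)) :
    X i * iota m g =
      iota m (X (evI (cidx i)) * g) + cI i • iota m (X (odI (cidx i)) * g) := by
  rw [map_mul, map_mul, X_eq_iota i, add_mul, smul_mul_assoc]

theorem pderiv_img (i : Var (m + 1)) (k : Fin (2 * m + 2)) :
    pderiv (bar i) (img k) = C ((1 / 2 : ℂ) * ((if k = evI (cidx i) then 1 else 0) +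
      cI i * if k = odI (cidx i) then 1 else 0)) := by
  have d : ∀ a b : Var (m + 1), pderiv a (X b : Pc (m + 1)) = if a = b then 1 else 0 :=
    fun a b => by
      split_ifs with h
      · rw [h, pderiv_X_self]
      · exact pderiv_X_of_ne (Ne.symm h)
  rcases evI_or_odI k with hk | hk <;> set a := half k <;> clear_value a <;> subst hk <;>
    rcases i with b | b <;>
    simp only [img_evI, img_odI, cidx, cI, bar, Sum.swap_inl, Sum.swap_inr, Sum.elim_inl,
      Sum.elim_inr, id_eq, Derivation.map_smul, map_add, map_sub, d, Sum.inl.injEq, Sum.inr.injEq,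
      reduceCtorEq, if_false, evI_inj, odI_inj, evI_ne_odI, fun a b => Ne.symm (evI_ne_odI a b),
      smul_eq_C_mul] <;>
    by_cases h : b = a <;> simp [h, Ne.symm, eq_comm (a := a)] <;>
    simp only [← map_mul, ← map_neg] <;> congr 1 <;> ring

theorem pderiv_iota (i : Var (m + 1)) (f : Poly (2 * m + 2)) :
    pderiv (bar i) (iota m f) = (1 / 2 : ℂ) •
      (iota m (pderiv (evI (cidx i)) f) + cI i • iota m (pderiv (odI (cidx i)) f)) := by
  induction f using MvPolynomial.induction_on with
  | C r => simp [iota_C]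
  | add p q hp hq =>
    simp only [map_add, hp, hq]
    module
  | mul_X p k hp =>
    simp only [map_mul, iota_X, pderiv_mul, hp, map_add, pderiv_img, pderiv_X, Pi.single_apply,
      apply_ite (iota m), map_one, map_zero, smul_eq_C_mul]
    split_ifs <;> simp only [map_add, map_mul, map_one, map_zero] <;> ring

theorem sum_real_vars {N : Type*} [AddCommMonoid N] (F : Fin (2 * m + 2) → N) :
    ∑ k, F k = ∑ a : Fin (m + 1), (F (evI a) + F (odI a)) := by
  rw [Finset.sum_add_distrib]
  have hb : Function.Bijective (Sum.elim (evI : Fin (m + 1) → Fin (2 * m + 2)) odI) := by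
    refine ⟨?_, fun k => ?_⟩
    · rintro (a | a) (b | b) h
      · exact congrArg Sum.inl (evI_inj.1 h)
      · exact absurd h (evI_ne_odI a b)
      · exact absurd h.symm (evI_ne_odI b a)
      · exact congrArg Sum.inr (odI_inj.1 h)
    · rcases evI_or_odI k with h | h
      · exact ⟨Sum.inl (half k), h.symm⟩
      · exact ⟨Sum.inr (half k), h.symm⟩
  rw [← Fintype.sum_equiv (Equiv.ofBijective _ hb) (fun x => F (Sum.elim evI odI x)) F
    (fun _ => rfl), Fintype.sum_sum_type]
  rfl

theorem lapC_iota (f : Poly (2 * m + 2)) :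
    lapC (m + 1) (iota m f) = (1 / 4 : ℂ) • iota m (plap (2 * m + 2) f) := by
  rw [lapC_apply, plap_apply, sum_real_vars, map_sum, Finset.smul_sum]
  refine Finset.sum_congr rfl fun a _ => ?_
  have h1 := pderiv_iota (Sum.inl a : Var (m + 1)) f
  have h2 : ∀ g, pderiv (Sum.inl a : Var (m + 1)) (iota m g) = (1 / 2 : ℂ) •
      (iota m (pderiv (evI a) g) + (-Complex.I) • iota m (pderiv (odI a) g)) := fun g =>
    pderiv_iota (Sum.inr a : Var (m + 1)) g
  rw [show (bar (Sum.inl a : Var (m + 1))) = Sum.inr a from rfl] at h1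
  rw [h1, Derivation.map_smul, map_add, Derivation.map_smul, h2, h2, map_add]
  simp only [cidx, cI, Sum.elim_inl, id_eq, pderiv_swap' (odI a) (evI a), smul_add, smul_smul]
  ring_nf
  rw [Complex.I_sq]
  module

theorem img_isHomogeneous (k : Fin (2 * m + 2)) : (img k).IsHomogeneous 1 := by
  rw [← mem_homogeneousSubmodule]
  have h : ∀ v : Var (m + 1), (X v : Pc (m + 1)) ∈ homogeneousSubmodule _ _ 1 :=
    fun v => isHomogeneous_X ℂ v
  unfold img
  split_ifs
  · exact Submodule.smul_mem _ _ (Submodule.add_mem _ (h _) (h _))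
  · exact Submodule.smul_mem _ _ (Submodule.sub_mem _ (h _) (h _))

theorem iota_isHomogeneous {l : ℕ} {p : Poly (2 * m + 2)} (hp : p.IsHomogeneous l) :
    (iota m p).IsHomogeneous l := by
  simpa [iota] using hp.aeval img img_isHomogeneous

/-- The inverse change of coordinates. -/
def psi (m : ℕ) : Pc (m + 1) →ₐ[ℂ] MvPolynomial (Fin (2 * m + 2)) ℂ :=
  aeval fun i => X (evI (cidx i)) + cI i • X (odI (cidx i))

theorem psi_iota (p : Poly (2 * m + 2)) :
    psi m (iota m p) = MvPolynomial.map Complex.ofRealHom p := by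
  induction p using MvPolynomial.induction_on with
  | C r => simp [iota_C, psi]
  | add p q hp hq => simp [hp, hq]
  | mul_X p k hp =>
    rw [map_mul, map_mul, hp, map_mul, map_X, iota_X]
    congr 1
    rcases evI_or_odI k with hk | hk <;> set a := half k <;> clear_value a <;> subst hk <;>
      simp only [img_evI, img_odI, psi, map_smul, map_add, map_sub, aeval_X, cidx, cI,
        Sum.elim_inl, Sum.elim_inr, id_eq]
    · module
    · rw [show (X (odI a) : MvPolynomial (Fin (2 * m + 2)) ℂ) = (1 : ℂ) • X (odI a) from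
        (one_smul ℂ _).symm]
      match_scalars <;> ring_nf <;> simp [Complex.I_sq]

theorem exists_decomp (f : Pc (m + 1)) :
    ∃ p q : Poly (2 * m + 2), f = iota m p + Complex.I • iota m q := by
  induction f using MvPolynomial.induction_on with
  | C c =>
    refine ⟨C c.re, C c.im, ?_⟩
    rw [iota_C, iota_C, smul_eq_C_mul, ← map_mul, ← map_add]
    congr 1
    rw [mul_comm]
    exact (Complex.re_add_im c).symm
  | add p q hp hq =>
    obtain ⟨p1, p2, rfl⟩ := hp
    obtain ⟨q1, q2, rfl⟩ := hq
    exact ⟨p1 + q1, p2 + q2, by rw [map_add, map_add]; module⟩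
  | mul_X p i hp =>
    obtain ⟨p1, p2, rfl⟩ := hp
    rw [mul_comm _ (X i), mul_add, mul_smul_comm, X_mul_iota, X_mul_iota]
    rcases i with a | a <;> simp only [cidx, cI, Sum.elim_inl, Sum.elim_inr, id_eq]
    · refine ⟨X (evI a) * p1 - X (odI a) * p2, X (evI a) * p2 + X (odI a) * p1, ?_⟩
      rw [map_sub, map_add]
      match_scalars <;> ring_nf <;> simp [Complex.I_sq]
    · refine ⟨X (evI a) * p1 + X (odI a) * p2, X (evI a) * p2 - X (odI a) * p1, ?_⟩
      rw [map_sub, map_add]
      match_scalars <;> ring_nf <;> simp [Complex.I_sq]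

theorem decomp_unique {p q : Poly (2 * m + 2)} (h : iota m p + Complex.I • iota m q = 0) :
    p = 0 ∧ q = 0 := by
  have e := congrArg (psi m) h
  rw [map_add, map_smul, map_zero, psi_iota, psi_iota] at e
  have key : ∀ s, coeff s p = 0 ∧ coeff s q = 0 := fun s => by
    have := congrArg (coeff s) e
    simp only [coeff_add, coeff_smul, coeff_map, coeff_zero, smul_eq_mul, Complex.ofRealHom_eq_coe]
      at this
    simpa [Complex.ext_iff] using this
  exact ⟨MvPolynomial.ext _ _ fun s => by simpa using (key s).1,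
    MvPolynomial.ext _ _ fun s => by simpa using (key s).2⟩

theorem psi_isHomogeneous {l : ℕ} {f : Pc (m + 1)} (hf : f.IsHomogeneous l) :
    (psi m f).IsHomogeneous l := by
  have h : ∀ i : Var (m + 1), (X (evI (cidx i)) + cI i • X (odI (cidx i)) :
      MvPolynomial (Fin (2 * m + 2)) ℂ).IsHomogeneous 1 := fun i => by
    rw [← mem_homogeneousSubmodule]
    exact Submodule.add_mem _ (isHomogeneous_X ℂ _)
      (Submodule.smul_mem _ _ (isHomogeneous_X ℂ _))
  simpa [psi] using hf.aeval _ h

/-- A real harmonic polynomial as a complex one. -/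
def iotaH (l : ℕ) (h : Harm (2 * m + 2) l) : Hc (m + 1) l :=
  ⟨iota m (h : Poly (2 * m + 2)), mem_Hc.2 ⟨iota_isHomogeneous (mem_Harm.1 h.2).1, by
    rw [lapC_iota, (mem_Harm.1 h.2).2, map_zero, smul_zero]⟩⟩

theorem coe_iotaH (l : ℕ) (h : Harm (2 * m + 2) l) :
    ((iotaH l h : Hc (m + 1) l) : Pc (m + 1)) = iota m (h : Poly (2 * m + 2)) := rfl

theorem iotaH_add (l : ℕ) (g h : Harm (2 * m + 2) l) :
    iotaH l (g + h) = iotaH l g + iotaH l h :=
  Subtype.ext (by rw [coe_iotaH, Submodule.coe_add, map_add]; rfl)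

theorem iotaH_smul (l : ℕ) (r : ℝ) (h : Harm (2 * m + 2) l) :
    iotaH l (r • h) = (r : ℂ) • iotaH l h :=
  Subtype.ext (by rw [coe_iotaH, Submodule.coe_smul, iota_smul]; rfl)

theorem iotaH_zero (l : ℕ) : iotaH l (0 : Harm (2 * m + 2) l) = 0 :=
  Subtype.ext (map_zero _)

theorem exists_decompH {l : ℕ} (f : Hc (m + 1) l) :
    ∃ p q : Harm (2 * m + 2) l, f = iotaH l p + Complex.I • iotaH l q := by
  obtain ⟨p, q, hpq⟩ := exists_decomp (f : Pc (m + 1))
  have hhom : p.IsHomogeneous l ∧ q.IsHomogeneous l := by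
    have e := psi_isHomogeneous (mem_Hc.1 f.2).1
    rw [hpq, map_add, map_smul, psi_iota, psi_iota] at e
    constructor <;> intro s hs <;> refine e (d := s) ?_ <;>
      simp only [coeff_add, coeff_smul, coeff_map, smul_eq_mul, Complex.ofRealHom_eq_coe, ne_eq,
        Complex.ext_iff] <;> simp [hs]
  have hlap : plap (2 * m + 2) p = 0 ∧ plap (2 * m + 2) q = 0 := by
    have e := (mem_Hc.1 f.2).2
    rw [hpq, map_add, map_smul, lapC_iota, lapC_iota, smul_comm, ← smul_add] at e
    exact decomp_unique ((smul_eq_zero.1 e).resolve_left (by norm_num))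
  exact ⟨⟨p, mem_Harm.2 ⟨hhom.1, hlap.1⟩⟩, ⟨q, mem_Harm.2 ⟨hhom.2, hlap.2⟩⟩,
    Subtype.ext hpq⟩

theorem decompH_unique {l : ℕ} {p q p' q' : Harm (2 * m + 2) l}
    (h : iotaH l p + Complex.I • iotaH l q = iotaH l p' + Complex.I • iotaH l q') :
    p = p' ∧ q = q' := by
  have e : iota m ((p : Poly (2 * m + 2)) - p') +
      Complex.I • iota m ((q : Poly (2 * m + 2)) - q') = 0 := by
    have h' : iota m (p : Poly (2 * m + 2)) + Complex.I • iota m (q : Poly (2 * m + 2)) =
        iota m (p' : Poly (2 * m + 2)) + Complex.I • iota m (q' : Poly (2 * m + 2)) :=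
      congrArg Subtype.val h
    rw [map_sub, map_sub]
    linear_combination (norm := module) h'
  exact ⟨Subtype.ext (sub_eq_zero.1 (decomp_unique e).1),
    Subtype.ext (sub_eq_zero.1 (decomp_unique e).2)⟩

/-- Complex linear maps agree when they agree on real harmonic polynomials. -/
theorem ext_iotaH {l : ℕ} {T T' : Module.End ℂ (Hc (m + 1) l)}
    (h : ∀ p, T (iotaH l p) = T' (iotaH l p)) : T = T' :=
  LinearMap.ext fun f => by
    obtain ⟨p, q, rfl⟩ := exists_decompH f
    rw [map_add, map_add, map_smul, map_smul, h, h]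

/-- Every real operator has a complex extension. -/
theorem exists_extend {l : ℕ} (P : Harm (2 * m + 2) l →ₗ[ℝ] Harm (2 * m + 2) l) :
    ∃ T : Module.End ℂ (Hc (m + 1) l), ∀ h, T (iotaH l h) = iotaH l (P h) := by
  choose re im hdec using fun f : Hc (m + 1) l => exists_decompH f
  let g : Hc (m + 1) l → Hc (m + 1) l :=
    fun f => iotaH l (P (re f)) + Complex.I • iotaH l (P (im f))
  have wd : ∀ f p q, f = iotaH l p + Complex.I • iotaH l q →
      g f = iotaH l (P p) + Complex.I • iotaH l (P q) := fun f p q h => by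
    obtain ⟨h1, h2⟩ := decompH_unique ((hdec f).symm.trans h)
    simp only [g, h1, h2]
  refine ⟨{ toFun := g, map_add' := fun f f' => ?_, map_smul' := fun c f => ?_ }, fun h => ?_⟩
  · rw [wd (f + f') (re f + re f') (im f + im f')
      (by rw [iotaH_add, iotaH_add]; conv_lhs => rw [hdec f, hdec f']
          module)]
    simp only [g, map_add, iotaH_add]
    module
  · rw [RingHom.id_apply, wd (c • f) (c.re • re f + (-c.im) • im f) (c.re • im f + c.im • re f)
      (by
        rw [iotaH_add, iotaH_add, iotaH_smul, iotaH_smul, iotaH_smul, iotaH_smul]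
        conv_lhs => rw [hdec f, ← Complex.re_add_im c]
        match_scalars <;> ring_nf <;> simp [Complex.I_sq] <;> ring)]
    simp only [g, map_add, map_smul, iotaH_add, iotaH_smul]
    conv_rhs => rw [← Complex.re_add_im c]
    match_scalars <;> ring_nf <;> simp [Complex.I_sq] <;> ring
  · show g _ = _
    rw [wd _ h 0 (by rw [iotaH_zero, smul_zero, add_zero]), map_zero, iotaH_zero, smul_zero,
      add_zero]

/-- The skew matrix of the plane of `u` and `v`. -/
def Wm {n : ℕ} (u v : Fin n) : Matrix (Fin n) (Fin n) ℝ :=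
  Matrix.single u v 1 - Matrix.single v u 1

theorem xiPoly_single {n : ℕ} (u v : Fin n) (f : Poly n) :
    xiPoly (Matrix.single u v (1 : ℝ)) f = X v * pderiv u f := by
  rw [xiPoly_apply, Finset.sum_eq_single u, Finset.sum_eq_single v]
  · simp [Matrix.single]
  · exact fun b _ hb => by simp [Matrix.single, Ne.symm hb]
  · simp
  · exact fun b _ hb => Finset.sum_eq_zero fun c _ => by simp [Matrix.single, Ne.symm hb]
  · simp

/-- The plane rotation. -/
def plane {n : ℕ} (u v : Fin n) : Poly n →ₗ[ℝ] Poly n := xiPoly (Wm v u)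

theorem xiPoly_sub {n : ℕ} (A B : Matrix (Fin n) (Fin n) ℝ) :
    xiPoly (A - B) = xiPoly A - xiPoly B := by
  refine LinearMap.ext fun f => ?_
  simp [xiPoly_apply, sub_smul, Finset.sum_sub_distrib]

theorem plane_apply {n : ℕ} (u v : Fin n) (f : Poly n) :
    plane u v f = X u * pderiv v f - X v * pderiv u f := by
  rw [plane, Wm, xiPoly_sub, LinearMap.sub_apply, xiPoly_single, xiPoly_single]

/-- A real variable of a complex one. -/
def sel (i : Var (m + 1)) (b : Bool) : Fin (2 * m + 2) :=
  if b then odI (cidx i) else evI (cidx i)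

/-- The coefficient of a real variable of a complex one. -/
def ec (i : Var (m + 1)) (b : Bool) : ℂ := if b then cI i else 1

theorem half_sel (i : Var (m + 1)) (b : Bool) : half (sel i b) = cidx i := by
  cases b <;> simp [sel, half_evI, half_odI]

theorem rot_iota (i j : Var (m + 1)) (f : Poly (2 * m + 2)) :
    rot i j (iota m f) = ∑ b : Bool, ∑ b' : Bool,
      ((1 / 2 : ℂ) * ec i b * ec j b') • iota m (plane (sel i b) (sel j b') f) := by
  rw [rot_apply, pderiv_iota, pderiv_iota, mul_smul_comm, mul_smul_comm, mul_add, mul_add,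
    mul_smul_comm, mul_smul_comm, X_mul_iota, X_mul_iota, X_mul_iota, X_mul_iota]
  simp only [Fintype.sum_bool, sel, ec, plane_apply, map_sub, map_add, Bool.false_eq_true,
    if_false, if_true, one_mul, mul_one]
  module

end Vale.Agent.P225.Full.Control
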