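import Vale.Agent.P225.Full.Control.Block

/-!
# P225 control: all shells at once

A space of families of operators, one for each shell, which is closed under commutators, contains
the scalars of every shell and the weighted products of rotations in disjoint coordinates, and is
stable under the rotations, is everything, provided the weights decrease with the degree.
-/

noncomputable section

namespace Vale.Agent.P225.Full.Control

open MvPolynomial

variable {M : ℕ} {ι : Type}

/-- Families of operators, one for each shell. -/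
abbrev Fam (M : ℕ) (deg : ι → ℕ) : Type := ∀ i, Module.End ℂ (Hc M (deg i))

/-- A rotation on every shell. -/
def famR (deg : ι → ℕ) (a b : Var M) : Fam M deg := fun i => opR (deg i) a b

/-- A weighted product of two rotations on every shell. -/
def famQ (deg : ι → ℕ) (κ : ι → ℝ) (a b c d : Var M) : Fam M deg :=
  fun i => (κ i : ℂ) • (opR (deg i) a b * opR (deg i) c d)

/-- The coordinate of a variable. -/
def coord (x : Var M) : Fin M := Sum.elim id id x

/-- The coordinates of the first two variables avoid those of the last two. -/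
def Disj (a b c d : Var M) : Prop :=
  coord a ≠ coord c ∧ coord a ≠ coord d ∧ coord b ≠ coord c ∧ coord b ≠ coord d

theorem disj_dia {a b : Fin M} (h : a ≠ b) :
    Disj (Sum.inl a) (Sum.inr a) (Sum.inl b) (Sum.inr b) := ⟨h, h, h, h⟩

/-- An operator acting diagonally on coefficients. -/
def IsDiag {l : ℕ} (T : Module.End ℂ (Hc M l)) (f : (Var M →₀ ℕ) → ℂ) : Prop :=
  ∀ (h : Hc M l) (s : Var M →₀ ℕ),
    coeff s ((T h : Hc M l) : Pc M) = f s * coeff s (h : Pc M)

theorem isDiag_opD (l : ℕ) (a : Fin M) : IsDiag (opD l a) (fun s => (mu a s : ℂ)) :=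
  fun h s => coeff_dia a (h : Pc M) s

theorem isDiag_one (l : ℕ) : IsDiag (1 : Module.End ℂ (Hc M l)) (fun _ => 1) :=
  fun h s => by simp

theorem IsDiag.mul {l : ℕ} {T U : Module.End ℂ (Hc M l)} {f g : (Var M →₀ ℕ) → ℂ}
    (hT : IsDiag T f) (hU : IsDiag U g) : IsDiag (T * U) (fun s => f s * g s) := fun h s => by
  rw [Module.End.mul_apply, hT, hU, mul_assoc]

theorem IsDiag.add {l : ℕ} {T U : Module.End ℂ (Hc M l)} {f g : (Var M →₀ ℕ) → ℂ}
    (hT : IsDiag T f) (hU : IsDiag U g) : IsDiag (T + U) (fun s => f s + g s) := fun h s => by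
  rw [LinearMap.add_apply, Submodule.coe_add, coeff_add, hT, hU, add_mul]

theorem IsDiag.smul {l : ℕ} {T : Module.End ℂ (Hc M l)} {f : (Var M →₀ ℕ) → ℂ} (c : ℂ)
    (hT : IsDiag T f) : IsDiag (c • T) (fun s => c * f s) := fun h s => by
  rw [LinearMap.smul_apply, Submodule.coe_smul, coeff_smul, hT, smul_eq_mul, mul_assoc]

theorem IsDiag.commute {l : ℕ} {T U : Module.End ℂ (Hc M l)} {f g : (Var M →₀ ℕ) → ℂ}
    (hT : IsDiag T f) (hU : IsDiag U g) : T * U = U * T :=
  LinearMap.ext fun h => Subtype.ext (MvPolynomial.ext _ _ fun s => by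
    rw [hT.mul hU h s, hU.mul hT h s]; ring)

theorem IsDiag.congr {l : ℕ} {T : Module.End ℂ (Hc M l)} {f g : (Var M →₀ ℕ) → ℂ}
    (hT : IsDiag T f) (h : ∀ s, f s = g s) : IsDiag T g := fun v s => by rw [hT v s, h s]

theorem weight_bound {l : ℕ} (h : Hc M l) {s : Var M →₀ ℕ} (hs : coeff s (h : Pc M) ≠ 0)
    (a : Fin M) : mu a s ∈ Finset.Icc (-(l : ℤ)) l := by
  have hdeg : s.degree = l := by
    rw [Finsupp.degree_eq_weight_one]
    exact (mem_Hc.1 h.2).1 hs
  have h1 := Finset.single_le_sum (f := fun k => s k) (fun k _ => Nat.zero_le _)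
    (Finset.mem_univ (Sum.inl a : Var M))
  have h2 := Finset.single_le_sum (f := fun k => s k) (fun k _ => Nat.zero_le _)
    (Finset.mem_univ (Sum.inr a : Var M))
  rw [Finsupp.degree_eq_sum] at hdeg
  simp only [mu, Finset.mem_Icc]
  omega

theorem eq_topExp [NeZero M] {l : ℕ} (h : Hc M l) {s : Var M →₀ ℕ}
    (hs : coeff s (h : Pc M) ≠ 0) (hmu : (l : ℤ) ≤ mu 0 s) : s = topExp M l := by
  have hdeg : s.degree = l := by
    rw [Finsupp.degree_eq_weight_one]
    exact (mem_Hc.1 h.2).1 hs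
  rw [Finsupp.degree_eq_sum] at hdeg
  simp only [mu] at hmu
  refine Finsupp.ext fun k => ?_
  rcases eq_or_ne k (Sum.inl 0) with rfl | hk
  · rw [topExp, Finsupp.single_eq_same]
    have := Finset.single_le_sum (f := fun k => s k) (fun k _ => Nat.zero_le _)
      (Finset.mem_univ (Sum.inl 0 : Var M))
    omega
  · rw [topExp, Finsupp.single_eq_of_ne hk]
    have := Finset.sum_le_sum_of_subset (f := fun k => s k)
      (Finset.subset_univ {(Sum.inl 0 : Var M), k})
    rw [Finset.sum_pair (Ne.symm hk)] at this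
    omega

theorem eq_topExp_of_zero [NeZero M] {l : ℕ} (s : Var M →₀ ℕ) (hs : s = topExp M l)
    {a : Fin M} (ha : a ≠ 0) : mu a s = 0 := by
  rw [hs, mu_topExp, if_neg ha]

/-- The seed operator of a shell, before filtering. -/
def opX [NeZero M] (l : ℕ) : Module.End ℂ (Hc M l) :=
  opR l (Sum.inr 0) (Sum.inl 1) * opR l (Sum.inr 0) (Sum.inl 2)

theorem opX_DD [NeZero M] (hM : 4 ≤ M) (l : ℕ) :
    (opD l 1 * opD l 2 * opX l - opX l * (opD l 1 * opD l 2) =
      opX (M := M) l * (opD l 1 + opD l 2 + 1)) ∧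
    (opD l 0 * opD l 1 + opD l 0 * opD l 2 + (2 : ℂ) • (opD l 1 * opD l 2)) * opX l
        - opX l * (opD l 0 * opD l 1 + opD l 0 * opD l 2 + (2 : ℂ) • (opD l 1 * opD l 2)) =
      (2 : ℂ) • (opX (M := M) l * (opD l 0 - 1)) := by
  obtain ⟨h10, h20, -, h12, -, -⟩ := fin_facts hM
  have step : ∀ (a : Fin M) (h : Hc M l), opD l a (opX l h) =
      opX l (opD l a h) + (if a = 0 then (-2 : ℂ) else if a = 1 ∨ a = 2 then 1 else 0) • opX l h := by
    intro a h
    have e1 := LinearMap.congr_fun (opD_comm l a (Sum.inr 0) (Sum.inl 1))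
      (opR l (Sum.inr 0) (Sum.inl 2) h)
    have e2 := LinearMap.congr_fun (opD_comm l a (Sum.inr 0) (Sum.inl 2)) h
    simp only [Module.End.mul_apply, LinearMap.add_apply, LinearMap.smul_apply] at e1 e2
    rw [opX, Module.End.mul_apply, Module.End.mul_apply, e1, e2, map_add, map_smul, add_assoc,
      ← add_smul]
    congr 2
    simp only [wv, Sum.inl.injEq, Sum.inr.injEq, reduceCtorEq, if_false]
    rcases eq_or_ne a 0 with rfl | ha0
    · simp [h10, h20]; norm_num
    rcases eq_or_ne a 1 with rfl | ha1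
    · simp [h10, Ne.symm h10, Ne.symm h12, h12]
    rcases eq_or_ne a 2 with rfl | ha2
    · simp [h20, Ne.symm h20, h12, Ne.symm h12]
    simp [ha0, ha1, ha2, Ne.symm ha0, Ne.symm ha1, Ne.symm ha2]
  have s0 : ∀ h : Hc M l, opD l 0 (opX l h) = opX l (opD l 0 h) + (-2 : ℂ) • opX l h := fun h => by
    rw [step, if_pos rfl]
  have s1 : ∀ h : Hc M l, opD l 1 (opX l h) = opX l (opD l 1 h) + opX l h := fun h => by
    rw [step, if_neg h10, if_pos (Or.inl rfl), one_smul]
  have s2 : ∀ h : Hc M l, opD l 2 (opX l h) = opX l (opD l 2 h) + opX l h := fun h => by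
    rw [step, if_neg h20, if_pos (Or.inr rfl), one_smul]
  constructor
  · refine LinearMap.ext fun h => ?_
    simp [s1, s2]
    module
  · refine LinearMap.ext fun h => ?_
    simp [s0, s1, s2]
    module

/-- The unfiltered seed on every shell. -/
def famG [NeZero M] (deg : ι → ℕ) (κ : ι → ℝ) : Fam M deg :=
  fun i => (κ i : ℂ) • opX (deg i)

/-- The first multiplier. -/
def famB1 [NeZero M] (deg : ι → ℕ) (κ : ι → ℝ) : Fam M deg :=
  fun i => (κ i : ℂ) • (opD (deg i) 0 + (-1 : ℂ) • 1)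

/-- The second multiplier. -/
def famB2 [NeZero M] (deg : ι → ℕ) (κ : ι → ℝ) : Fam M deg :=
  fun i => (κ i : ℂ) • (opD (deg i) 1 + opD (deg i) 2 + 1)

/-- The weighted product of two weights. -/
abbrev famW (deg : ι → ℕ) (κ : ι → ℝ) (a b : Fin M) : Fam M deg :=
  famQ deg κ (Sum.inl a) (Sum.inr a) (Sum.inl b) (Sum.inr b)

/-- The combination producing the first multiplier. -/
def famC1 [NeZero M] (deg : ι → ℕ) (κ : ι → ℝ) : Fam M deg :=
  (1 / 2 : ℂ) • (famW deg κ 0 1 + famW deg κ 0 2 + (2 : ℂ) • famW deg κ 1 2)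

/-- The eigenvalue of the first multiplier. -/
def bOne [NeZero M] (κ : ι → ℝ) (i : ι) (s : Var M →₀ ℕ) : ℂ :=
  (κ i : ℂ) * ((mu 0 s : ℂ) - 1)

/-- The eigenvalue of the second multiplier. -/
def bTwo [NeZero M] (κ : ι → ℝ) (i : ι) (s : Var M →₀ ℕ) : ℂ :=
  (κ i : ℂ) * ((mu 1 s : ℂ) + (mu 2 s : ℂ) + 1)

theorem famW_diag (deg : ι → ℕ) (κ : ι → ℝ) (a b : Fin M) (i : ι) :
    ∃ f, IsDiag (famW deg κ a b i) f :=
  ⟨_, ((isDiag_opD _ a).mul (isDiag_opD _ b)).smul _⟩

theorem famC1_diag [NeZero M] (deg : ι → ℕ) (κ : ι → ℝ) (i : ι) :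
    ∃ f, IsDiag (famC1 (M := M) deg κ i) f := by
  obtain ⟨f, hf⟩ := famW_diag (M := M) deg κ 0 1 i
  obtain ⟨g, hg⟩ := famW_diag (M := M) deg κ 0 2 i
  obtain ⟨k, hk⟩ := famW_diag (M := M) deg κ 1 2 i
  exact ⟨_, ((hf.add hg).add (hk.smul 2)).smul _⟩

theorem famB1_diag [NeZero M] (deg : ι → ℕ) (κ : ι → ℝ) (i : ι) :
    IsDiag (famB1 (M := M) deg κ i) (bOne κ i) :=
  (((isDiag_opD _ 0).add ((isDiag_one _).smul (-1))).smul _).congr fun s => by
    simp [bOne, sub_eq_add_neg]

theorem famB2_diag [NeZero M] (deg : ι → ℕ) (κ : ι → ℝ) (i : ι) :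
    IsDiag (famB2 (M := M) deg κ i) (bTwo κ i) :=
  (((isDiag_opD _ 1).add (isDiag_opD _ 2)).add (isDiag_one _)).smul _

theorem famC1_comm [NeZero M] (hM : 4 ≤ M) (deg : ι → ℕ) (κ : ι → ℝ) :
    famC1 (M := M) deg κ * famG deg κ - famG deg κ * famC1 deg κ = famG deg κ * famB1 deg κ :=
  funext fun i => LinearMap.ext fun h => by
    have := LinearMap.congr_fun (opX_DD (M := M) hM (deg i)).2 h
    simp [famC1, famG, famB1, famQ] at this ⊢
    linear_combination (norm := module) ((κ i : ℂ) * (κ i : ℂ) / 2) • this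

theorem famC2_comm [NeZero M] (hM : 4 ≤ M) (deg : ι → ℕ) (κ : ι → ℝ) :
    famW (M := M) deg κ 1 2 * famG deg κ - famG deg κ * famW deg κ 1 2 =
      famG deg κ * famB2 deg κ :=
  funext fun i => LinearMap.ext fun h => by
    have := LinearMap.congr_fun (opX_DD (M := M) hM (deg i)).1 h
    simp [famG, famB2, famQ] at this ⊢
    linear_combination (norm := module) ((κ i : ℂ) * (κ i : ℂ)) • this

theorem famG_mem [NeZero M] (hM : 4 ≤ M) (deg : ι → ℕ) (κ : ι → ℝ)
    (L : Submodule ℂ (Fam M deg))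
    (hrot : ∀ a b, ∀ T ∈ L, famR deg a b * T - T * famR deg a b ∈ L)
    (hQ : ∀ a b c d, Disj a b c d → famQ deg κ a b c d ∈ L) : famG deg κ ∈ L := by
  obtain ⟨h10, h20, h30, h12, h13, h23⟩ := fin_facts hM
  have h := hrot (Sum.inr 0) (Sum.inl 3) _ (hQ (Sum.inr 3) (Sum.inl 1) (Sum.inr 0) (Sum.inl 2)
    ⟨h30, Ne.symm h23, h10, h12⟩)
  refine Eq.mp (congrArg (· ∈ L) (funext fun i => LinearMap.ext fun v => ?_)) h
  have e1 := LinearMap.congr_fun (opR_comm (deg i) (Sum.inr 0) (Sum.inl 3) (Sum.inr 3)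
    (Sum.inl 1)) (opR (deg i) (Sum.inr 0) (Sum.inl 2) v)
  have e2 := LinearMap.congr_fun (opR_comm (deg i) (Sum.inr 0) (Sum.inl 3) (Sum.inr 0)
    (Sum.inl 2)) v
  simp [pair, bar, h10, h20, h30, Ne.symm h10, Ne.symm h20, Ne.symm h30] at e1 e2
  rw [sub_eq_iff_eq_add'] at e1
  rw [sub_eq_zero] at e2
  simp [famG, famR, famQ, opX, e1, e2]

/-- One more linear factor in a diagonal filter. -/
theorem filter_step (deg : ι → ℕ) (L : Submodule ℂ (Fam M deg))
    (hbr : ∀ S ∈ L, ∀ T ∈ L, S * T - T * S ∈ L) {C B G P : Fam M deg}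
    {b f : ι → (Var M →₀ ℕ) → ℂ} (hCL : C ∈ L) (hC : ∀ i, ∃ g, IsDiag (C i) g)
    (hB : ∀ i, IsDiag (B i) (b i)) (hCG : C * G - G * C = G * B) (v : ℂ) (hP : G * P ∈ L)
    (hf : ∀ i, IsDiag (P i) (f i)) :
    ∃ P' : Fam M deg, G * P' ∈ L ∧ ∀ i, IsDiag (P' i) (fun s => (b i s - v) * f i s) := by
  refine ⟨B * P + (-v) • P, ?_, fun i => ?_⟩
  · have h := L.add_mem (hbr _ hCL _ hP) (L.smul_mem (-v) hP)
    refine Eq.mp (congrArg (· ∈ L) ?_) h
    have hcomm : P * C = C * P := funext fun i => by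
      obtain ⟨g, hg⟩ := hC i
      exact (hf i).commute hg
    rw [mul_assoc G P C, hcomm, ← mul_assoc, ← mul_assoc, ← sub_mul, hCG, mul_assoc]
    refine funext fun i => LinearMap.ext fun h => ?_
    simp
  · exact (((hB i).mul (hf i)).add ((hf i).smul (-v))).congr fun s => by ring

/-- Diagonal filters in front of the seed. -/
theorem filtered [NeZero M] (hM : 4 ≤ M) (deg : ι → ℕ) (κ : ι → ℝ) (L : Submodule ℂ (Fam M deg))
    (hbr : ∀ S ∈ L, ∀ T ∈ L, S * T - T * S ∈ L)
    (hrot : ∀ a b, ∀ T ∈ L, famR deg a b * T - T * famR deg a b ∈ L)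
    (hQ : ∀ a b c d, Disj a b c d → famQ deg κ a b c d ∈ L) (S1 S2 : Finset ℂ) :
    ∃ P : Fam M deg, famG deg κ * P ∈ L ∧ ∀ i, IsDiag (P i)
      (fun s => (∏ v ∈ S1, (bOne κ i s - v)) * ∏ v ∈ S2, (bTwo κ i s - v)) := by
  obtain ⟨h10, h20, h30, h12, h13, h23⟩ := fin_facts hM
  have hW : ∀ {a b : Fin M}, a ≠ b → famW deg κ a b ∈ L := fun h => hQ _ _ _ _ (disj_dia h)
  have hC1L : famC1 deg κ ∈ L := L.smul_mem _ (L.add_mem (L.add_mem (hW (Ne.symm h10))
    (hW (Ne.symm h20))) (L.smul_mem _ (hW h12)))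
  induction S1 using Finset.induction with
  | empty =>
    induction S2 using Finset.induction with
    | empty =>
      exact ⟨1, by rw [mul_one]; exact famG_mem hM deg κ L hrot hQ,
        fun i => (isDiag_one _).congr fun s => by simp⟩
    | insert v S hv ih =>
      obtain ⟨P, hP, hPd⟩ := ih
      obtain ⟨P', hP', hPd'⟩ := filter_step deg L hbr (hW h12) (famW_diag deg κ 1 2)
        (famB2_diag deg κ) (famC2_comm hM deg κ) v hP hPd
      exact ⟨P', hP', fun i => (hPd' i).congr fun s => by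
        rw [Finset.prod_insert hv, Finset.prod_empty, one_mul, one_mul]⟩
  | insert v S hv ih =>
    obtain ⟨P, hP, hPd⟩ := ih
    obtain ⟨P', hP', hPd'⟩ := filter_step deg L hbr hC1L (famC1_diag deg κ)
      (famB1_diag deg κ) (famC1_comm hM deg κ) v hP hPd
    exact ⟨P', hP', fun i => (hPd' i).congr fun s => by rw [Finset.prod_insert hv, mul_assoc]⟩

/-- A filtered seed which is pure on one shell and vanishes on the lower shells. -/
theorem pure_seed [NeZero M] [Fintype ι] (hM : 4 ≤ M) (deg : ι → ℕ) (κ : ι → ℝ)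
    (hpos : ∀ i, 0 < κ i) (hmono : ∀ i j, deg i < deg j → κ j < κ i)
    (L : Submodule ℂ (Fam M deg))
    (hbr : ∀ S ∈ L, ∀ T ∈ L, S * T - T * S ∈ L)
    (hrot : ∀ a b, ∀ T ∈ L, famR deg a b * T - T * famR deg a b ∈ L)
    (hQ : ∀ a b c d, Disj a b c d → famQ deg κ a b c d ∈ L) (i0 : ι) :
    ∃ F ∈ L, (∀ i, deg i < deg i0 → F i = 0) ∧ ∃ c : ℂ, c ≠ 0 ∧
      F i0 = c • (phiT M (deg i0)).smulRight (vTwo (deg i0) (1 : Fin M) 2) := by
  classical
  obtain ⟨h10, h20, h30, h12, h13, h23⟩ := fin_facts hM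
  set l := deg i0 with hl
  set S1 : Finset ℂ := (Finset.Icc (-(l : ℤ)) ((l : ℤ) - 1)).image
    fun a : ℤ => (κ i0 : ℂ) * ((a : ℂ) - 1) with hS1
  set S2 : Finset ℂ := (Finset.univ.filter fun i => deg i < l).biUnion fun i =>
    (Finset.Icc (-(2 * (deg i : ℤ))) (2 * (deg i : ℤ))).image
      fun a : ℤ => (κ i : ℂ) * ((a : ℂ) + 1) with hS2
  obtain ⟨P, hP, hPd⟩ := filtered hM deg κ L hbr hrot hQ S1 S2
  have hκ0 : (κ i0 : ℂ) ≠ 0 := by exact_mod_cast (hpos i0).ne'
  set c : ℂ := (∏ v ∈ S1, (bOne κ i0 (topExp M l) - v)) *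
    ∏ v ∈ S2, (bTwo κ i0 (topExp M l) - v) with hc
  have hc0 : c ≠ 0 := by
    refine mul_ne_zero (Finset.prod_ne_zero_iff.2 fun v hv => ?_)
      (Finset.prod_ne_zero_iff.2 fun v hv => ?_)
    · obtain ⟨a, ha, rfl⟩ := Finset.mem_image.1 hv
      simp only [bOne, mu_topExp, if_pos]
      rw [← mul_sub, mul_ne_zero_iff, sub_ne_zero]
      refine ⟨hκ0, fun e => ?_⟩
      rw [sub_left_inj, Int.cast_inj] at e
      have := (Finset.mem_Icc.1 ha).2
      omega
    · obtain ⟨i, hi, hv'⟩ := Finset.mem_biUnion.1 hv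
      obtain ⟨a, ha, rfl⟩ := Finset.mem_image.1 hv'
      simp only [bTwo, mu_topExp, if_neg h10, if_neg h20]
      rw [sub_ne_zero]
      intro e
      have hκ : κ i0 = κ i * ((a : ℝ) + 1) := by
        have e' : ((κ i0 : ℝ) : ℂ) = ((κ i * ((a : ℝ) + 1) : ℝ) : ℂ) := by
          push_cast
          simpa using e
        exact_mod_cast e'
      have hlt := hmono i i0 (Finset.mem_filter.1 hi).2
      have h1 : (0 : ℝ) < (a : ℝ) + 1 := by
        by_contra hle
        nlinarith [hpos i, hpos i0]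
      have h2 : (1 : ℝ) ≤ (a : ℝ) + 1 := by
        have : (-1 : ℤ) < a := by exact_mod_cast (show (-1 : ℝ) < (a : ℝ) by linarith)
        exact_mod_cast (show (1 : ℤ) ≤ a + 1 by omega)
      nlinarith [hpos i]
  refine ⟨famG deg κ * P, hP, fun i hi => ?_, (κ i0 : ℂ) * c, mul_ne_zero hκ0 hc0, ?_⟩
  · have hPi : P i = 0 := LinearMap.ext fun h => Subtype.ext (MvPolynomial.ext _ _ fun s => by
      rw [hPd i h s]
      dsimp only
      by_cases hs : coeff s (h : Pc M) = 0
      · simp [hs]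
      · have hmem : bTwo κ i s ∈ S2 := by
          refine Finset.mem_biUnion.2 ⟨i, Finset.mem_filter.2 ⟨Finset.mem_univ i, hi⟩,
            Finset.mem_image.2 ⟨mu 1 s + mu 2 s, ?_, by simp [bTwo]⟩⟩
          have h1 := Finset.mem_Icc.1 (weight_bound h hs 1)
          have h2 := Finset.mem_Icc.1 (weight_bound h hs 2)
          rw [Finset.mem_Icc]; omega
        rw [Finset.prod_eq_zero hmem (sub_self _)]
        simp)
    refine LinearMap.ext fun h => ?_
    simp [hPi]
  · have hPi : P i0 = c • (phiT M l).smulRight (eT M l) :=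
      LinearMap.ext fun h => Subtype.ext (MvPolynomial.ext _ _ fun s => by
        rw [hPd i0 h s]
        dsimp only
        simp only [LinearMap.smul_apply, LinearMap.smulRight_apply, Submodule.coe_smul,
          coeff_smul, smul_eq_mul]
        by_cases hs' : s = topExp M l
        · subst hs'
          simp [c, eT, topPoly, phiT, l]
        · have h0 : coeff s ((eT M l : Hc M l) : Pc M) = 0 := by
            simp [eT, topPoly, coeff_monomial, Ne.symm hs']
          rw [h0]
          by_cases hs : coeff s (h : Pc M) = 0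
          · simp [hs]
          · have hmem : bOne κ i0 s ∈ S1 := by
              refine Finset.mem_image.2 ⟨mu 0 s, ?_, rfl⟩
              have h1 := Finset.mem_Icc.1 (weight_bound h hs 0)
              have h2 : ¬ (l : ℤ) ≤ mu 0 s := fun hle => hs' (eq_topExp h hs hle)
              rw [Finset.mem_Icc]; omega
            rw [Finset.prod_eq_zero hmem (sub_self _)]
            simp)
    refine LinearMap.ext fun h => ?_
    show (famG (M := M) deg κ i0 * P i0) h = _
    rw [hPi]
    simp only [famG, opX, vTwo, l, Module.End.mul_apply, LinearMap.smul_apply,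
      LinearMap.smulRight_apply, map_smul]
    module

/-- A shell is generated once it contains the seed. -/
theorem single_mem [NeZero M] (hM : 4 ≤ M) (deg : ι → ℕ) [DecidableEq ι] (hdeg : ∀ i, 2 ≤ deg i)
    (κ : ι → ℝ) (hpos : ∀ i, 0 < κ i) (L : Submodule ℂ (Fam M deg))
    (hbr : ∀ S ∈ L, ∀ T ∈ L, S * T - T * S ∈ L)
    (hscal : ∀ c : ι → ℂ, (fun i => c i • (1 : Module.End ℂ (Hc M (deg i)))) ∈ L)
    (hrot : ∀ a b, ∀ T ∈ L, famR deg a b * T - T * famR deg a b ∈ L)
    (hQ : ∀ a b c d, Disj a b c d → famQ deg κ a b c d ∈ L) (i0 : ι)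
    (hseed : Pi.single i0 ((phiT M (deg i0)).smulRight (vTwo (deg i0) (1 : Fin M) 2)) ∈ L)
    (T : Module.End ℂ (Hc M (deg i0))) : Pi.single i0 T ∈ L := by
  obtain ⟨h10, h20, h30, h12, h13, h23⟩ := fin_facts hM
  have hκ0 : (κ i0 : ℂ) ≠ 0 := by exact_mod_cast (hpos i0).ne'
  set I := L.comap (LinearMap.single ℂ (fun i => Module.End ℂ (Hc M (deg i))) i0) with hI
  have memI : ∀ T, T ∈ I ↔ Pi.single i0 T ∈ L := fun T => Iff.rfl
  have hsingle : ∀ (R : Fam M deg) (T : Module.End ℂ (Hc M (deg i0))),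
      R * Pi.single i0 T - Pi.single i0 T * R =
        Pi.single i0 (R i0 * T - T * R i0) := fun R T => funext fun j => by
    rcases eq_or_ne j i0 with rfl | hj
    · simp
    · simp [Pi.single_eq_of_ne hj]
  have hItop : I = ⊤ := by
    refine block_top hM (hdeg i0) I ?_ ?_ ?_ ?_ hseed
    · refine (memI _).2 (Eq.mp (congrArg (· ∈ L) (funext fun j => ?_))
        (hscal (Pi.single i0 1)))
      rcases eq_or_ne j i0 with rfl | hj
      · simp
      · refine LinearMap.ext fun h => ?_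
        simp [Pi.single_eq_of_ne hj]
    · intro S hS T hT
      refine (memI _).2 ?_
      have := hbr _ ((memI S).1 hS) _ ((memI T).1 hT)
      rw [hsingle, Pi.single_eq_same] at this
      exact this
    · intro a b T hT
      refine (memI _).2 ?_
      have := hrot a b _ ((memI T).1 hT)
      rw [hsingle] at this
      exact this
    · intro T hT
      refine (Submodule.smul_mem_iff I hκ0).1 ((memI _).2 ?_)
      have := hbr _ (hQ _ _ _ _ (disj_dia (Ne.symm h10))) _ ((memI T).1 hT)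
      rw [hsingle] at this
      refine Eq.mp (congrArg (fun x => Pi.single i0 x ∈ L) ?_) this
      refine LinearMap.ext fun h => ?_
      simp [famQ, smul_sub]
  exact (memI T).1 (hItop ▸ Submodule.mem_top)

/-- The generated space is everything. -/
theorem top_of_generators [NeZero M] [Fintype ι] (hM : 4 ≤ M) (deg : ι → ℕ)
    (hdeg : ∀ i, 2 ≤ deg i) (hinj : Function.Injective deg) (κ : ι → ℝ) (hpos : ∀ i, 0 < κ i)
    (hmono : ∀ i j, deg i < deg j → κ j < κ i) (L : Submodule ℂ (Fam M deg))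
    (hbr : ∀ S ∈ L, ∀ T ∈ L, S * T - T * S ∈ L)
    (hscal : ∀ c : ι → ℂ, (fun i => c i • (1 : Module.End ℂ (Hc M (deg i)))) ∈ L)
    (hrot : ∀ a b, ∀ T ∈ L, famR deg a b * T - T * famR deg a b ∈ L)
    (hQ : ∀ a b c d, Disj a b c d → famQ deg κ a b c d ∈ L) : L = ⊤ := by
  classical
  suffices H : ∀ (k : ℕ) (i0 : ι), Finset.univ.sup deg - deg i0 = k →
      ∀ T, Pi.single i0 T ∈ L by
    rw [eq_top_iff]
    intro T _
    rw [← Finset.univ_sum_single T]
    exact L.sum_mem fun i _ => H _ i rfl _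
  intro k
  induction k using Nat.strong_induction_on with
  | _ k ih =>
  intro i0 hk
  obtain ⟨F, hF, hlow, c, hc, htop⟩ := pure_seed hM deg κ hpos hmono L hbr hrot hQ i0
  refine single_mem hM deg hdeg κ hpos L hbr hscal hrot hQ i0 ?_
  have hrest : ∑ i ∈ Finset.univ.erase i0, Pi.single i (F i) ∈ L := by
    refine L.sum_mem fun i hi => ?_
    rcases lt_trichotomy (deg i) (deg i0) with hlt | heq | hgt
    · rw [hlow i hlt, Pi.single_zero]; exact L.zero_mem
    · exact absurd (hinj heq) (Finset.mem_erase.1 hi).1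
    · refine ih _ ?_ i rfl _
      have := Finset.le_sup (f := deg) (Finset.mem_univ i)
      omega
  have e := Finset.add_sum_erase Finset.univ (fun i => Pi.single i (F i)) (Finset.mem_univ i0)
  rw [Finset.univ_sum_single] at e
  have := L.sub_mem hF hrest
  have hs : ∀ X : Module.End ℂ (Hc M (deg i0)),
      Pi.single i0 (c • X) = c • (Pi.single i0 X : Fam M deg) :=
    fun X => (LinearMap.single ℂ (fun i => Module.End ℂ (Hc M (deg i))) i0).map_smul c X
  rw [← eq_sub_of_add_eq e, htop, hs] at this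
  exact (Submodule.smul_mem_iff L hc).1 this

end Vale.Agent.P225.Full.Control
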