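import Vale.Agent.P225.Full.Control.Quad
import Vale.Agent.P225.Full.Control.Top
import Vale.Agent.P225.Full.Reach

/-!
# P225 control: generation

The weighted squares `κ_l ξ_J²` of the orthogonal complex structures, together with the scalars of
the shells, generate the product of all shell algebras.
-/

noncomputable section

namespace Vale.Agent.P225.Full.Control

open MvPolynomial Matrix

variable {m : ℕ} {ι : Type} {deg : ι → ℕ}

/-- A complex family is described by the real and imaginary parts of its values on real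
polynomials. -/
def Rel (T : Fam (m + 1) deg) (P Q : RFam (2 * m + 2) deg) : Prop :=
  ∀ i h, T i (iotaH (deg i) h) =
    iotaH (deg i) (P i h) + Complex.I • iotaH (deg i) (Q i h)

theorem Rel.add {T T' : Fam (m + 1) deg} {P Q P' Q' : RFam (2 * m + 2) deg} (h : Rel T P Q)
    (h' : Rel T' P' Q') : Rel (T + T') (P + P') (Q + Q') := fun i v => by
  simp only [Pi.add_apply, LinearMap.add_apply, h i v, h' i v, iotaH_add]
  module

theorem iotaH_sub (l : ℕ) (g h : Harm (2 * m + 2) l) :
    iotaH l (g - h) = iotaH l g - iotaH l h := by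
  rw [eq_sub_iff_add_eq, ← iotaH_add, sub_add_cancel]

theorem Rel.mul {T T' : Fam (m + 1) deg} {P Q P' Q' : RFam (2 * m + 2) deg} (h : Rel T P Q)
    (h' : Rel T' P' Q') : Rel (T * T') (P * P' - Q * Q') (Q * P' + P * Q') := fun i v => by
  simp only [Pi.mul_apply, Pi.sub_apply, Pi.add_apply, LinearMap.add_apply, LinearMap.sub_apply,
    Module.End.mul_apply, h' i v, map_add, map_smul, h i _, iotaH_add, iotaH_sub]
  match_scalars <;> ring_nf <;> simp [Complex.I_sq]

theorem Rel.bracket {T T' : Fam (m + 1) deg} {P Q P' Q' : RFam (2 * m + 2) deg} (h : Rel T P Q)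
    (h' : Rel T' P' Q') : Rel (T * T' - T' * T) ((P * P' - P' * P) - (Q * Q' - Q' * Q))
      ((Q * P' - P' * Q) + (P * Q' - Q' * P)) := fun i v => by
  have a := h.mul h' i v
  have b := h'.mul h i v
  simp only [Pi.mul_apply, Pi.sub_apply, Pi.add_apply, LinearMap.add_apply, LinearMap.sub_apply,
    Module.End.mul_apply, iotaH_add, iotaH_sub] at a b ⊢
  linear_combination (norm := module) a - b

theorem Rel.smul {T : Fam (m + 1) deg} {P Q : RFam (2 * m + 2) deg} (c : ℂ) (h : Rel T P Q) :
    Rel (c • T) (c.re • P + (-c.im) • Q) (c.re • Q + c.im • P) := fun i v => by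
  simp only [Pi.smul_apply, Pi.add_apply, LinearMap.smul_apply, LinearMap.add_apply, h i v,
    iotaH_add, iotaH_smul]
  conv_lhs => rw [← Complex.re_add_im c]
  match_scalars <;> ring_nf <;> simp [Complex.I_sq] <;> ring

/-- The complexification of a real space of families. -/
def cxSpace (S : Submodule ℝ (RFam (2 * m + 2) deg)) : Submodule ℂ (Fam (m + 1) deg) where
  carrier := {T | ∃ P ∈ S, ∃ Q ∈ S, Rel T P Q}
  add_mem' := by
    rintro T T' ⟨P, hP, Q, hQ, h⟩ ⟨P', hP', Q', hQ', h'⟩
    exact ⟨_, S.add_mem hP hP', _, S.add_mem hQ hQ', h.add h'⟩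
  zero_mem' := ⟨0, S.zero_mem, 0, S.zero_mem, fun i v => by
    simp [iotaH_zero]⟩
  smul_mem' := by
    rintro c T ⟨P, hP, Q, hQ, h⟩
    exact ⟨_, S.add_mem (S.smul_mem _ hP) (S.smul_mem _ hQ), _,
      S.add_mem (S.smul_mem _ hQ) (S.smul_mem _ hP), h.smul c⟩

/-- The real or imaginary part of the matrix of a complex rotation. -/
def rotMat (f : ℂ → ℝ) (a b : Var (m + 1)) : Matrix (Fin (2 * m + 2)) (Fin (2 * m + 2)) ℝ :=
  ∑ β : Bool, ∑ β' : Bool, f ((1 / 2 : ℂ) * ec a β * ec b β') • Wm (sel b β') (sel a β)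

theorem coe_famA_Wm (i : ι) (u v : Fin (2 * m + 2)) (h : Harm (2 * m + 2) (deg i)) :
    (((famA (2 * m + 2) deg (Wm v u)) i h : Harm (2 * m + 2) (deg i)) : Poly (2 * m + 2)) =
      plane u v (h : Poly (2 * m + 2)) :=
  coe_xiE (Wm_skew v u) h

theorem rel_famR (a b : Var (m + 1)) :
    Rel (famR deg a b) (famA (2 * m + 2) deg (rotMat Complex.re a b))
      (famA (2 * m + 2) deg (rotMat Complex.im a b)) := fun i v => by
  refine Subtype.ext ?_
  show rot a b (iota m (v : Poly (2 * m + 2))) = _
  rw [rot_iota]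
  simp only [rotMat, map_sum, map_smul, Finset.sum_apply, Pi.smul_apply, LinearMap.sum_apply,
    LinearMap.smul_apply, Submodule.coe_add, coe_iotaH, Submodule.coe_sum, Submodule.coe_smul,
    coe_famA_Wm, iota_smul, Finset.smul_sum, smul_smul, ← Finset.sum_add_distrib, ← add_smul]
  refine Finset.sum_congr rfl fun β _ => Finset.sum_congr rfl fun β' _ => ?_
  match_scalars
  simp [Complex.ext_iff]

theorem rotMat_pr_mem (hm : 1 ≤ m) (κ : ι → ℝ) (f g : ℂ → ℝ) {a b c d : Var (m + 1)}
    (hd : Disj a b c d) : pr (2 * m + 2) deg κ (rotMat f a b) (rotMat g c d) ∈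
      genSpace (2 * m + 2) deg κ := by
  obtain ⟨hac, had, hbc, hbd⟩ := hd
  have sep : ∀ {x y : Var (m + 1)} (β β' : Bool), coord x ≠ coord y → sel x β ≠ sel y β' :=
    fun {x y} β β' h e => h ((half_sel x β).symm.trans ((congrArg half e).trans (half_sel y β')))
  simp only [rotMat, map_sum, map_smul, LinearMap.sum_apply, LinearMap.smul_apply]
  refine Submodule.sum_mem _ fun γ _ => Submodule.sum_mem _ fun γ' _ => Submodule.smul_mem _ _ ?_
  refine Submodule.sum_mem _ fun β _ => Submodule.sum_mem _ fun β' _ => Submodule.smul_mem _ _ ?_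
  rcases eq_or_ne (sel b β') (sel a β) with h | h
  · rw [h, Wm_self, map_zero, LinearMap.zero_apply]
    exact Submodule.zero_mem _
  rcases eq_or_ne (sel d γ') (sel c γ) with h' | h'
  · rw [h', Wm_self, map_zero]
    exact Submodule.zero_mem _
  exact quad_mem m hm deg κ h h' (sep _ _ hbd) (sep _ _ hbc) (sep _ _ had) (sep _ _ hac)

/-- Generation for weights decreasing with the degree. -/
theorem genSpace_eq_top [Fintype ι] (hm : 3 ≤ m) (hdeg : ∀ i, 2 ≤ deg i)
    (hinj : Function.Injective deg) (κ : ι → ℝ) (hpos : ∀ i, 0 < κ i)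
    (hmono : ∀ i j, deg i < deg j → κ j < κ i) : genSpace (2 * m + 2) deg κ = ⊤ := by
  set S0 := genSpace (2 * m + 2) deg κ with hS0
  have h0 := genSpace_closed (n := 2 * m + 2) deg κ
  have hbr : ∀ X ∈ S0, ∀ Y ∈ S0, X * Y - Y * X ∈ S0 := fun X hX => genSpace_bracket deg κ hX
  have hA : ∀ f a b, famA (2 * m + 2) deg (rotMat f a b) ∈ stab S0 := fun f a b => by
    simp only [rotMat, map_sum, map_smul]
    exact Submodule.sum_mem _ fun β _ => Submodule.sum_mem _ fun β' _ =>
      Submodule.smul_mem _ _ (plane_mem_stab deg κ _ _)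
  have htop : cxSpace S0 = ⊤ := by
    refine top_of_generators (by omega) deg hdeg hinj κ hpos hmono _ ?_ ?_ ?_ ?_
    · rintro T ⟨P, hP, Q, hQ, h⟩ T' ⟨P', hP', Q', hQ', h'⟩
      exact ⟨_, S0.sub_mem (hbr P hP P' hP') (hbr Q hQ Q' hQ'), _,
        S0.add_mem (hbr Q hQ P' hP') (hbr P hP Q' hQ'), h.bracket h'⟩
    · intro c
      refine ⟨_, h0.scal fun i => (c i).re, _, h0.scal fun i => (c i).im, fun i v => ?_⟩
      simp only [LinearMap.smul_apply, Module.End.one_apply, iotaH_smul, smul_smul, ← add_smul]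
      rw [mul_comm Complex.I, Complex.re_add_im]
    · rintro a b T ⟨P, hP, Q, hQ, h⟩
      exact ⟨_, S0.sub_mem (hA _ a b P hP) (hA _ a b Q hQ), _,
        S0.add_mem (hA _ a b P hP) (hA _ a b Q hQ), (rel_famR a b).bracket h⟩
    · intro a b c d hd
      refine ⟨pr _ deg κ (rotMat Complex.re a b) (rotMat Complex.re c d) -
          pr _ deg κ (rotMat Complex.im a b) (rotMat Complex.im c d),
        S0.sub_mem (rotMat_pr_mem (by omega) κ _ _ hd) (rotMat_pr_mem (by omega) κ _ _ hd),
        pr _ deg κ (rotMat Complex.im a b) (rotMat Complex.re c d) +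
          pr _ deg κ (rotMat Complex.re a b) (rotMat Complex.im c d),
        S0.add_mem (rotMat_pr_mem (by omega) κ _ _ hd) (rotMat_pr_mem (by omega) κ _ _ hd),
        fun i v => ?_⟩
      have e : (opR (deg i) a b * opR (deg i) c d) (iotaH (deg i) v) = _ :=
        ((rel_famR (deg := deg) a b).mul (rel_famR c d)) i v
      simp only [famQ, Pi.sub_apply, Pi.add_apply, pr_apply, LinearMap.sub_apply,
        LinearMap.add_apply, LinearMap.smul_apply, iotaH_add, iotaH_sub, iotaH_smul] at e ⊢
      rw [e]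
      simp only [famA, LinearMap.pi_apply, Pi.mul_apply]
      module
  rw [eq_top_iff]
  intro P _
  choose T hT using fun i => exists_extend (P i)
  obtain ⟨P', hP', Q', -, h⟩ := (htop ▸ Submodule.mem_top : T ∈ cxSpace S0)
  have e : P = P' := funext fun i => LinearMap.ext fun v => by
    have e1 := h i v
    rw [hT i v] at e1
    exact (decompH_unique (p := P i v) (p' := P' i v) (q := 0) (q' := Q' i v) (by rw [iotaH_zero, smul_zero, add_zero]; exact e1)).1
  exact e ▸ hP'

end Control

open Control in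
/-- The weighted pulse generators generate everything on the shells `2 .. L`. -/
theorem generation : Generation := by
  intro m L hm kappa hpos hanti B hB S hscal hsq hstable
  set deg : Fin (L - 1) → ℕ := fun i => (i : ℕ) + 2 with hdeg
  set κ : Fin (L - 1) → ℝ := fun i => kappa ((i : ℕ) + 2) with hκ
  set c : Fin (L - 1) → ℝ := fun i =>
    κ i * (sphEig (2 * m + 2) (deg i) / (2 * m + 1)) with hc
  have hgen : ∀ J, IsCS J → ∀ i : Fin (L - 1), kappa ((i : ℕ) + 2) • B ((i : ℕ) + 2) J =
      pr (2 * m + 2) deg κ J J i + c i • (1 : Module.End ℝ (Harm (2 * m + 2) (deg i))) := by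
    intro J hJ i
    refine LinearMap.ext fun v => Subtype.ext ?_
    simp only [LinearMap.smul_apply, Submodule.coe_smul, hB ((i : ℕ) + 2) J hJ v,
      LinearMap.add_apply, pr_apply, Module.End.mul_apply, Submodule.coe_add,
      Module.End.one_apply, coe_xiE hJ.1, c, κ, deg]
    module
  have hclosed : IsGenClosed deg κ S := by
    refine ⟨fun d => hscal d, fun J hJ => ?_, fun J hJ X hX => ?_⟩
    · have h1 := S.sub_mem (hsq J hJ) (hscal c)
      refine Eq.mp (congrArg (· ∈ S) (funext fun i => ?_)) h1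
      show kappa ((i : ℕ) + 2) • B ((i : ℕ) + 2) J - c i • (LinearMap.id :
        Harm (2 * m + 2) ((i : ℕ) + 2) →ₗ[ℝ] Harm (2 * m + 2) ((i : ℕ) + 2)) = _
      rw [hgen J hJ i]
      exact add_sub_cancel_right _ _
    · refine Eq.mp (congrArg (· ∈ S) (funext fun i => ?_)) (hstable J hJ X hX)
      rw [hgen J hJ i]
      refine LinearMap.ext fun v => ?_
      simp
  rw [eq_top_iff, ← genSpace_eq_top (deg := deg) (m := m) (by omega) (fun i => by simp [deg])
    (fun i j h => Fin.ext (by simpa [deg] using h)) κ (fun i => hpos _) ?_]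
  · exact sInf_le hclosed
  · intro i j hij
    refine hanti ?_ ?_ hij <;> simp [Set.mem_Icc] <;> omega

end Vale.Agent.P225.Full
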