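import Vale.Agent.P225.Full.Control.Complexify
import Vale.Agent.P225.Full.Coef

/-!
# P225 control: squares of rotations by complex structures

On the shells, the space generated by the squares `ξ_J²` of the orthogonal complex structures
contains the products of two plane rotations in disjoint planes, and it is preserved by all plane
rotations.
-/

noncomputable section

namespace Vale.Agent.P225.Full.Control

open MvPolynomial Matrix

variable {n : ℕ}

/-- The ring of operators on a real shell, spelled out to help instance unification. -/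
instance instRingEndHarm (n l : ℕ) : Ring (Module.End ℝ (Harm n l)) := Module.End.instRing

/-- The skew part of a matrix. -/
def skp : Matrix (Fin n) (Fin n) ℝ →ₗ[ℝ] Matrix (Fin n) (Fin n) ℝ where
  toFun J := (1 / 2 : ℝ) • (J - Jᵀ)
  map_add' A B := by rw [transpose_add]; module
  map_smul' r A := by rw [transpose_smul, RingHom.id_apply]; module

theorem skp_skew (J : Matrix (Fin n) (Fin n) ℝ) (a b : Fin n) : skp J a b = -skp J b a := by
  simp [skp]
  ring

theorem skp_of_skew {J : Matrix (Fin n) (Fin n) ℝ} (h : Jᵀ = -J) : skp J = J := by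
  show (1 / 2 : ℝ) • (J - Jᵀ) = J
  rw [h]
  module

theorem xiPoly_add' (A B : Matrix (Fin n) (Fin n) ℝ) : xiPoly (A + B) = xiPoly A + xiPoly B := by
  refine LinearMap.ext fun f => ?_
  simp [xiPoly_apply, add_smul, Finset.sum_add_distrib]

theorem xiPoly_smul' (r : ℝ) (A : Matrix (Fin n) (Fin n) ℝ) : xiPoly (r • A) = r • xiPoly A := by
  refine LinearMap.ext fun f => ?_
  simp [xiPoly_apply, Finset.smul_sum, smul_smul]

theorem xiPoly_X' (J : Matrix (Fin n) (Fin n) ℝ) (k : Fin n) :
    xiPoly J (X k) = ∑ j, J k j • (X j : Poly n) := by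
  rw [xiPoly_apply, Finset.sum_eq_single k]
  · simp
  · exact fun b _ hb => Finset.sum_eq_zero fun c _ => by simp [pderiv_X_of_ne (R := ℝ) (Ne.symm hb)]
  · simp

theorem xiPoly_comm (A B : Matrix (Fin n) (Fin n) ℝ) (f : Poly n) :
    xiPoly A (xiPoly B f) - xiPoly B (xiPoly A f) = xiPoly (B * A - A * B) f := by
  induction f using MvPolynomial.induction_on with
  | C a => simp [xiPoly_apply]
  | add p q hp hq =>
    simp only [map_add]
    linear_combination hp + hq
  | mul_X p k hp =>
    have hk : xiPoly A (xiPoly B (X k)) - xiPoly B (xiPoly A (X k)) =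
        xiPoly (B * A - A * B) (X k) := by
      rw [xiPoly_X', xiPoly_X', xiPoly_X', map_sum, map_sum]
      simp only [map_smul, xiPoly_X', Finset.smul_sum, smul_smul, Matrix.sub_apply,
        Matrix.mul_apply, sub_smul, Finset.sum_smul, Finset.sum_sub_distrib]
      congr 1 <;> exact Finset.sum_comm
    simp only [Shell.xiPoly_mul', map_add]
    linear_combination (X k : Poly n) * hp + p * hk

/-- The rotation of a skew matrix on a shell, extended linearly to all matrices. -/
def xiE (n l : ℕ) : Matrix (Fin n) (Fin n) ℝ →ₗ[ℝ] Module.End ℝ (Harm n l) where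
  toFun J := (xiPoly (skp J)).restrict fun f hf => mem_Harm.2
    ⟨xiPoly_isHomogeneous _ (mem_Harm.1 hf).1,
      by rw [Shell.plap_xiPoly (skp_skew J), (mem_Harm.1 hf).2, map_zero]⟩
  map_add' A B := LinearMap.ext fun f => Subtype.ext (by
    show xiPoly (skp (A + B)) (f : Poly n) = _
    rw [map_add, xiPoly_add']
    rfl)
  map_smul' r A := LinearMap.ext fun f => Subtype.ext (by
    show xiPoly (skp (r • A)) (f : Poly n) = _
    rw [map_smul, xiPoly_smul']
    rfl)

theorem coe_xiE {l : ℕ} {J : Matrix (Fin n) (Fin n) ℝ} (hJ : Jᵀ = -J) (f : Harm n l) :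
    ((xiE n l J f : Harm n l) : Poly n) = xiPoly J (f : Poly n) := by
  show xiPoly (skp J) (f : Poly n) = _
  rw [skp_of_skew hJ]

theorem xiE_comm {l : ℕ} {A B : Matrix (Fin n) (Fin n) ℝ} (hA : Aᵀ = -A) (hB : Bᵀ = -B) :
    xiE n l A * xiE n l B - xiE n l B * xiE n l A = xiE n l (B * A - A * B) := by
  have h : (B * A - A * B)ᵀ = -(B * A - A * B) := by
    rw [transpose_sub, transpose_mul, transpose_mul, hA, hB]
    noncomm_ring
  refine LinearMap.ext fun f => Subtype.ext ?_
  rw [coe_xiE h, ← xiPoly_comm]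
  simp [coe_xiE hA, coe_xiE hB]

theorem Wm_skew (u v : Fin n) : (Wm u v)ᵀ = -Wm u v := by
  simp [Wm, transpose_sub, transpose_single]

theorem Wm_self (u : Fin n) : Wm u u = 0 := sub_self _

theorem Wm_cube {u v : Fin n} (h : u ≠ v) : Wm u v * Wm u v * Wm u v = -Wm u v := by
  simp [Wm, mul_sub, sub_mul, h, Ne.symm h]
  abel

theorem Wm_mul_Wm {u v w z : Fin n} (h1 : u ≠ w) (h2 : u ≠ z) (h3 : v ≠ w) (h4 : v ≠ z) :
    Wm u v * Wm w z = 0 := by
  simp [Wm, mul_sub, sub_mul, h1, h2, h3, h4]

variable {ι : Type}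

/-- Families of operators on real shells. -/
abbrev RFam (n : ℕ) (deg : ι → ℕ) : Type := ∀ i, Module.End ℝ (Harm n (deg i))

/-- A rotation on every shell. -/
def famA (n : ℕ) (deg : ι → ℕ) : Matrix (Fin n) (Fin n) ℝ →ₗ[ℝ] RFam n deg :=
  LinearMap.pi fun i => xiE n (deg i)

/-- A weighted product of two rotations on every shell. -/
def pr (n : ℕ) (deg : ι → ℕ) (κ : ι → ℝ) :
    Matrix (Fin n) (Fin n) ℝ →ₗ[ℝ] Matrix (Fin n) (Fin n) ℝ →ₗ[ℝ] RFam n deg :=
  LinearMap.mk₂ ℝ (fun A B i => κ i • (xiE n (deg i) A * xiE n (deg i) B))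
    (fun A A' B => funext fun i => LinearMap.ext fun h => by
      simp only [Pi.add_apply, map_add, LinearMap.smul_apply, LinearMap.add_apply,
        Module.End.mul_apply]
      module)
    (fun r A B => funext fun i => LinearMap.ext fun h => by
      simp only [Pi.smul_apply, map_smul, LinearMap.smul_apply, Module.End.mul_apply]
      module)
    (fun A B B' => funext fun i => LinearMap.ext fun h => by
      simp only [Pi.add_apply, map_add, LinearMap.smul_apply, LinearMap.add_apply,
        Module.End.mul_apply]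
      module)
    (fun r A B => funext fun i => LinearMap.ext fun h => by
      simp only [Pi.smul_apply, map_smul, LinearMap.smul_apply, Module.End.mul_apply]
      module)

theorem pr_apply (deg : ι → ℕ) (κ : ι → ℝ) (A B : Matrix (Fin n) (Fin n) ℝ) (i : ι) :
    pr n deg κ A B i = κ i • (xiE n (deg i) A * xiE n (deg i) B) := rfl

/-- A space of families which contains the scalars and the weighted squares, and is stable under
the commutators with the squares. -/
structure IsGenClosed (deg : ι → ℕ) (κ : ι → ℝ) (S : Submodule ℝ (RFam n deg)) : Prop where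
  scal : ∀ c : ι → ℝ, (fun i => c i • (1 : Module.End ℝ (Harm n (deg i)))) ∈ S
  sq : ∀ J, IsCS J → pr n deg κ J J ∈ S
  stable : ∀ J, IsCS J → ∀ X ∈ S, pr n deg κ J J * X - X * pr n deg κ J J ∈ S

/-- The elements whose commutators preserve a space. -/
def stab {deg : ι → ℕ} (S : Submodule ℝ (RFam n deg)) : Submodule ℝ (RFam n deg) where
  carrier := {X | ∀ Y ∈ S, X * Y - Y * X ∈ S}
  add_mem' := fun {X X'} hX hX' Y hY => by
    refine Eq.mp (congrArg (· ∈ S) ?_) (S.add_mem (hX Y hY) (hX' Y hY))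
    noncomm_ring
  zero_mem' := fun Y _ => by simp
  smul_mem' := fun r X hX Y hY => by
    refine Eq.mp (congrArg (· ∈ S) ?_) (S.smul_mem r (hX Y hY))
    refine funext fun i => LinearMap.ext fun h => ?_
    simp [smul_sub]

theorem scal_comm {deg : ι → ℕ} (c : ι → ℝ) (Y : RFam n deg) :
    (fun i => c i • (1 : Module.End ℝ (Harm n (deg i)))) * Y -
      Y * (fun i => c i • (1 : Module.End ℝ (Harm n (deg i)))) = 0 :=
  funext fun i => LinearMap.ext fun h => by simp

/-- The smallest closed space. -/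
def genSpace (n : ℕ) (deg : ι → ℕ) (κ : ι → ℝ) : Submodule ℝ (RFam n deg) :=
  sInf {S | IsGenClosed deg κ S}

theorem genSpace_closed (deg : ι → ℕ) (κ : ι → ℝ) : IsGenClosed deg κ (genSpace n deg κ) where
  scal c := Submodule.mem_sInf.2 fun S hS => hS.scal c
  sq J hJ := Submodule.mem_sInf.2 fun S hS => hS.sq J hJ
  stable J hJ X hX := Submodule.mem_sInf.2 fun S hS => hS.stable J hJ X
    (Submodule.mem_sInf.1 hX S hS)

theorem genSpace_bracket (deg : ι → ℕ) (κ : ι → ℝ) :
    genSpace n deg κ ≤ stab (genSpace n deg κ) := by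
  set S0 := genSpace n deg κ
  have h0 := genSpace_closed (n := n) deg κ
  refine (sInf_le ?_ : S0 ≤ S0 ⊓ stab S0).trans inf_le_right
  refine ⟨fun c => ⟨h0.scal c, fun Y _ => ?_⟩, fun J hJ => ⟨h0.sq J hJ, h0.stable J hJ⟩,
    fun J hJ X hX => ⟨h0.stable J hJ X hX.1, fun Y hY => ?_⟩⟩
  · rw [scal_comm]
    exact S0.zero_mem
  · refine Eq.mp (congrArg (· ∈ S0) ?_)
      (S0.sub_mem (h0.stable J hJ _ (hX.2 Y hY)) (hX.2 _ (h0.stable J hJ Y hY)))
    noncomm_ring

theorem linear_coeff_zero (a0 a1 : ℝ) (r : ℝ → ℝ) (hr : Continuous r)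
    (h : ∀ t : ℝ, a0 + t * a1 + t ^ 2 * r t = 0) : a1 = 0 := by
  have ha0 : a0 = 0 := by simpa using h 0
  have he : (fun t : ℝ => a1 + t * r t) = fun _ => 0 := by
    refine Continuous.ext_on (dense_compl_singleton 0) (by fun_prop) continuous_const fun t ht => ?_
    have := h t
    rw [ha0, zero_add] at this
    have e : t * (a1 + t * r t) = 0 := by linear_combination this
    exact (mul_eq_zero.1 e).resolve_left ht
  simpa using congrFun he 0

theorem conj_isCS {J R : Matrix (Fin n) (Fin n) ℝ} {c : ℝ} (hJ : IsCS J) (hc : c ≠ 0)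
    (h1 : R * Rᵀ = c • (1 : Matrix (Fin n) (Fin n) ℝ))
    (h2 : Rᵀ * R = c • (1 : Matrix (Fin n) (Fin n) ℝ)) : IsCS (c⁻¹ • (R * J * Rᵀ)) := by
  refine ⟨?_, ?_⟩
  · rw [transpose_smul, transpose_mul, transpose_mul, transpose_transpose, hJ.1, neg_mul,
      mul_neg, smul_neg, mul_assoc]
  · rw [smul_mul_assoc, mul_smul_comm, smul_smul,
      show R * J * Rᵀ * (R * J * Rᵀ) = R * J * (Rᵀ * R) * J * Rᵀ by noncomm_ring, h2]
    simp only [mul_smul_comm, smul_mul_assoc, mul_one, smul_smul]
    rw [show R * J * J * Rᵀ = -(R * Rᵀ) by rw [mul_assoc R J J, hJ.2]; noncomm_ring, h1, smul_neg,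
      smul_smul, show c⁻¹ * c⁻¹ * c * c = 1 by field_simp, one_smul]

/-- Plane rotations preserve the generated space of weighted squares. -/
theorem plane_mem_stab (deg : ι → ℕ) (κ : ι → ℝ) [Fintype ι] (u v : Fin n) :
    famA n deg (Wm u v) ∈ stab (genSpace n deg κ) := by
  classical
  rcases eq_or_ne u v with rfl | huv
  · rw [Wm_self, map_zero]
    exact (stab _).zero_mem
  set S0 := genSpace n deg κ with hS0
  set W := Wm u v with hW
  have h0 := genSpace_closed (n := n) deg κ
  have hskew : Wᵀ = -W := Wm_skew u v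
  have hcube : W * W * W = -W := Wm_cube huv
  have key : ∀ J, IsCS J →
      famA n deg W * pr n deg κ J J - pr n deg κ J J * famA n deg W ∈ S0 := by
    intro J hJ
    set K := W * J - J * W with hK
    have hsym : pr n deg κ J K + pr n deg κ K J ∈ S0 := by
      rw [← Subspace.forall_mem_dualAnnihilator_apply_eq_zero_iff]
      intro φ hφ
      rw [Submodule.mem_dualAnnihilator] at hφ
      set A1 := (2 : ℝ) • K with hA1
      set A2 := (2 : ℝ) • J + (2 : ℝ) • (W * W * J) + (2 : ℝ) • (J * (W * W))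
        + (-4 : ℝ) • (W * J * W) with hA2
      set A3 := (2 : ℝ) • K + (4 : ℝ) • (W * J * (W * W)) + (-4 : ℝ) • (W * W * J * W) with hA3
      set A4 := J + (2 : ℝ) • (W * W * J) + (2 : ℝ) • (J * (W * W))
        + (4 : ℝ) • (W * W * J * (W * W)) with hA4
      have hP : ∀ t : ℝ, φ (pr n deg κ (J + t • A1 + t ^ 2 • A2 + t ^ 3 • A3 + t ^ 4 • A4)
          (J + t • A1 + t ^ 2 • A2 + t ^ 3 • A3 + t ^ 4 • A4)) = 0 := by
        intro t
        set R : Matrix (Fin n) (Fin n) ℝ :=
          (1 + t ^ 2) • (1 : Matrix (Fin n) (Fin n) ℝ) + (2 * t) • W + (2 * t ^ 2) • (W * W) with hR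
        have hRT : Rᵀ = (1 + t ^ 2) • (1 : Matrix (Fin n) (Fin n) ℝ) + (-(2 * t)) • W
            + (2 * t ^ 2) • (W * W) := by
          rw [hR]
          simp [transpose_add, transpose_smul, transpose_mul, hskew]
        have h4 : W * (W * (W * W)) = -(W * W) := by
          rw [← mul_assoc W W W, hcube, mul_neg]
        have h3 : W * (W * W) = -W := by rw [← mul_assoc, hcube]
        have hRR : R * Rᵀ = ((1 + t ^ 2) ^ 2) • (1 : Matrix (Fin n) (Fin n) ℝ) ∧
            Rᵀ * R = ((1 + t ^ 2) ^ 2) • (1 : Matrix (Fin n) (Fin n) ℝ) := by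
          rw [hRT, hR]
          constructor <;>
          · simp only [mul_add, add_mul, smul_mul_assoc, mul_smul_comm, mul_assoc, h4, h3,
              mul_one, one_mul, smul_neg, mul_neg]
            module
        have hne : (1 + t ^ 2) ^ 2 ≠ (0 : ℝ) := by positivity
        have hmem := hφ _ (h0.sq _ (conj_isCS hJ hne hRR.1 hRR.2))
        have hexp : R * J * Rᵀ = J + t • A1 + t ^ 2 • A2 + t ^ 3 • A3 + t ^ 4 • A4 := by
          rw [hRT, hR, hA1, hA2, hA3, hA4, hK]
          simp only [mul_add, add_mul, smul_mul_assoc, mul_smul_comm, mul_assoc, mul_one, one_mul,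
            mul_sub, sub_mul, smul_sub]
          module
        rw [hexp] at hmem
        simp only [map_smul, LinearMap.smul_apply, smul_eq_mul, mul_eq_zero, inv_eq_zero] at hmem
        rcases hmem with h | h | h
        · exact absurd h hne
        · exact absurd h hne
        · exact h
      set b : Matrix (Fin n) (Fin n) ℝ → Matrix (Fin n) (Fin n) ℝ → ℝ :=
        fun A B => φ (pr n deg κ A B) with hb
      have hlin : b J A1 + b A1 J = 0 := by
        refine linear_coeff_zero (b J J) _ (fun t =>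
          (b J A2 + b A1 A1 + b A2 J) + t * (b J A3 + b A1 A2 + b A2 A1 + b A3 J)
          + t ^ 2 * (b J A4 + b A1 A3 + b A2 A2 + b A3 A1 + b A4 J)
          + t ^ 3 * (b A1 A4 + b A2 A3 + b A3 A2 + b A4 A1)
          + t ^ 4 * (b A2 A4 + b A3 A3 + b A4 A2) + t ^ 5 * (b A3 A4 + b A4 A3)
          + t ^ 6 * b A4 A4) (by fun_prop) fun t => ?_
        have := hP t
        simp only [map_add, map_smul, LinearMap.add_apply, LinearMap.smul_apply, smul_eq_mul]
          at this
        simp only [hb]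
        linear_combination this
      simp only [hb, hA1, map_smul, LinearMap.smul_apply, smul_eq_mul] at hlin
      rw [map_add]
      linarith
    refine Eq.mp (congrArg (· ∈ S0) ?_) (S0.neg_mem hsym)
    refine funext fun i => ?_
    have hc : xiE n (deg i) W * xiE n (deg i) J - xiE n (deg i) J * xiE n (deg i) W =
        -xiE n (deg i) K := by
      rw [xiE_comm hskew hJ.1, ← map_neg, hK, neg_sub]
    set a := xiE n (deg i) W
    set j := xiE n (deg i) J
    set k := xiE n (deg i) K
    have hk : a * (j * j) - j * j * a = -(j * k + k * j) := by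
      rw [show a * (j * j) - j * j * a = (a * j - j * a) * j + j * (a * j - j * a) by noncomm_ring,
        hc]
      noncomm_ring
    show -(κ i • (j * k) + κ i • (k * j)) = a * (κ i • (j * j)) - κ i • (j * j) * a
    rw [mul_smul_comm, smul_mul_assoc, ← smul_sub, hk, smul_neg, smul_add]
  -- the elements kept in the space by the rotation
  set A := famA n deg W with hA
  let S1 : Submodule ℝ (RFam n deg) :=
    { carrier := {X | X ∈ S0 ∧ A * X - X * A ∈ S0}
      add_mem' := fun {X X'} hX hX' => ⟨S0.add_mem hX.1 hX'.1,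
        Eq.mp (congrArg (· ∈ S0) (by noncomm_ring)) (S0.add_mem hX.2 hX'.2)⟩
      zero_mem' := ⟨S0.zero_mem, by simp⟩
      smul_mem' := fun r X hX => ⟨S0.smul_mem r hX.1,
        Eq.mp (congrArg (· ∈ S0) (funext fun i => LinearMap.ext fun h => by simp [smul_sub]))
          (S0.smul_mem r hX.2)⟩ }
  have hS1 : IsGenClosed deg κ S1 := by
    refine ⟨fun c => ⟨h0.scal c, ?_⟩, fun J hJ => ⟨h0.sq J hJ, key J hJ⟩, fun J hJ X hX => ?_⟩
    · refine Eq.mp (congrArg (· ∈ S0) ?_) S0.zero_mem
      exact funext fun i => LinearMap.ext fun h => by simp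
    · refine ⟨h0.stable J hJ X hX.1, ?_⟩
      refine Eq.mp (congrArg (· ∈ S0) ?_)
        (S0.add_mem (genSpace_bracket deg κ (key J hJ) X hX.1) (h0.stable J hJ _ hX.2))
      noncomm_ring
  intro Y hY
  exact ((sInf_le hS1 : S0 ≤ S1) hY).2

/-- The standard structure with two signs changed. -/
def stdTwist (n : ℕ) (e0 e1 : ℝ) : Matrix (Fin n) (Fin n) ℝ := fun i j =>
  (if i.val / 2 = 0 then e0 else if i.val / 2 = 1 then e1 else 1) * stdJ n i j

theorem stdTwist_isCS (m : ℕ) {e0 e1 : ℝ} (he0 : e0 * e0 = 1) (he1 : e1 * e1 = 1) :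
    IsCS (stdTwist (2 * m + 2) e0 e1) := by
  obtain ⟨ht, hsq⟩ := isCS_stdJ m
  set ε : Fin (2 * m + 2) → ℝ :=
    fun i => if i.val / 2 = 0 then e0 else if i.val / 2 = 1 then e1 else 1 with hε
  have hε2 : ∀ i, ε i * ε i = 1 := fun i => by
    simp only [ε]; split_ifs <;> simp [he0, he1]
  have hpair : ∀ i j, stdJ (2 * m + 2) i j ≠ 0 → ε i = ε j := fun i j h => by
    have : i.val / 2 = j.val / 2 := by
      simp only [stdJ] at h
      split_ifs at h with h1 h2
      · omega
      · omega
      · simp at h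
    simp only [ε, this]
  refine ⟨?_, ?_⟩
  · refine Matrix.ext fun i j => ?_
    show ε j * stdJ (2 * m + 2) j i = -(ε i * stdJ (2 * m + 2) i j)
    have hs : stdJ (2 * m + 2) j i = -stdJ (2 * m + 2) i j := congrFun (congrFun ht i) j
    by_cases h : stdJ (2 * m + 2) i j = 0
    · rw [hs, h]; simp
    · rw [hs, hpair i j h]; ring
  · refine Matrix.ext fun i k => ?_
    rw [← hsq, Matrix.mul_apply, Matrix.mul_apply]
    refine Finset.sum_congr rfl fun j _ => ?_
    show ε i * stdJ (2 * m + 2) i j * (ε j * stdJ (2 * m + 2) j k) = _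
    by_cases h : stdJ (2 * m + 2) i j = 0
    · rw [h]; simp
    · rw [← hpair i j h]
      linear_combination (stdJ (2 * m + 2) i j * stdJ (2 * m + 2) j k) * hε2 i

theorem stdTwist_eq (n : ℕ) (hn : 4 ≤ n) (e0 e1 : ℝ) :
    stdTwist n e0 e1 = stdJ n + (e0 - 1) • Wm (⟨1, by omega⟩ : Fin n) ⟨0, by omega⟩
      + (e1 - 1) • Wm (⟨3, by omega⟩ : Fin n) ⟨2, by omega⟩ := by
  refine Matrix.ext fun i j => ?_
  simp only [stdTwist, stdJ, Wm, Matrix.add_apply, Matrix.smul_apply, Matrix.sub_apply,
    Matrix.single_apply, Fin.ext_iff, smul_eq_mul]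
  split_ifs <;> first | (exfalso; omega) | ring

theorem exists_perm_four {α : Type*} [Fintype α] [DecidableEq α] {f g : Fin 4 → α}
    (hf : Function.Injective f) (hg : Function.Injective g) :
    ∃ σ : Equiv.Perm α, ∀ k, σ (f k) = g k := by
  classical
  let e : {x // x ∈ Set.range f} ≃ {x // x ∈ Set.range g} :=
    (Equiv.ofInjective f hf).symm.trans (Equiv.ofInjective g hg)
  refine ⟨e.extendSubtype, fun k => ?_⟩
  rw [Equiv.extendSubtype_apply_of_mem e _ ⟨k, rfl⟩]
  simp [e]

theorem submatrix_Wm (σ : Equiv.Perm (Fin n)) (a b : Fin n) :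
    (Wm a b).submatrix σ.symm σ.symm = Wm (σ a) (σ b) := by
  refine Matrix.ext fun i j => ?_
  simp [Wm, Matrix.single_apply, Equiv.eq_symm_apply]

theorem submatrix_isCS {J : Matrix (Fin n) (Fin n) ℝ} (hJ : IsCS J) (σ : Equiv.Perm (Fin n)) :
    IsCS (J.submatrix σ σ) := by
  refine ⟨?_, ?_⟩
  · rw [transpose_submatrix, hJ.1]
    rfl
  · rw [submatrix_mul_equiv, hJ.2]
    refine Matrix.ext fun i j => ?_
    simp [Matrix.one_apply]

/-- The product of rotations in two disjoint planes. -/
theorem quad_mem (m : ℕ) (hm : 1 ≤ m) (deg : ι → ℕ) (κ : ι → ℝ) {u v w z : Fin (2 * m + 2)}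
    (huv : u ≠ v) (hwz : w ≠ z) (huw : u ≠ w) (huz : u ≠ z) (hvw : v ≠ w) (hvz : v ≠ z) :
    pr (2 * m + 2) deg κ (Wm u v) (Wm w z) ∈ genSpace (2 * m + 2) deg κ := by
  have hn : 4 ≤ 2 * m + 2 := by omega
  set S0 := genSpace (2 * m + 2) deg κ with hS0
  obtain ⟨σ, hσ⟩ := exists_perm_four
    (f := ![(⟨1, by omega⟩ : Fin (2 * m + 2)), ⟨0, by omega⟩, ⟨3, by omega⟩, ⟨2, by omega⟩])
    (g := ![u, v, w, z])
    (by intro a b h; fin_cases a <;> fin_cases b <;> simp [Fin.ext_iff] at h ⊢)
    (by intro a b h; fin_cases a <;> fin_cases b <;>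
          simp [huv, hwz, huw, huz, hvw, hvz, Ne.symm huv, Ne.symm hwz, Ne.symm huw, Ne.symm huz,
            Ne.symm hvw, Ne.symm hvz] at h ⊢)
  set A := Wm u v with hA
  set B := Wm w z with hB
  set J0 := (stdJ (2 * m + 2)).submatrix σ.symm σ.symm - A - B with hJ0
  have hmem : ∀ e0 e1 : ℝ, e0 * e0 = 1 → e1 * e1 = 1 →
      pr (2 * m + 2) deg κ (J0 + e0 • A + e1 • B) (J0 + e0 • A + e1 • B) ∈ S0 := by
    intro e0 e1 he0 he1
    refine (genSpace_closed deg κ).sq _ ?_
    have h := submatrix_isCS (stdTwist_isCS m he0 he1) σ.symm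
    rw [stdTwist_eq _ hn, submatrix_add, submatrix_smul] at h
    have hA' : A = (Wm (⟨1, by omega⟩ : Fin (2 * m + 2)) ⟨0, by omega⟩).submatrix σ.symm σ.symm := by
      rw [submatrix_Wm, hA]
      exact congrArg₂ Wm (hσ 0).symm (hσ 1).symm
    have hB' : B = (Wm (⟨3, by omega⟩ : Fin (2 * m + 2)) ⟨2, by omega⟩).submatrix σ.symm σ.symm := by
      rw [submatrix_Wm, hB]
      exact congrArg₂ Wm (hσ 2).symm (hσ 3).symm
    rw [hJ0, hA', hB']
    refine Eq.mp (congrArg IsCS ?_) h
    refine Matrix.ext fun i j => ?_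
    simp
    ring
  have h := S0.add_mem (S0.sub_mem (hmem 1 1 (by norm_num) (by norm_num))
    (hmem (-1) 1 (by norm_num) (by norm_num)))
    (S0.sub_mem (hmem (-1) (-1) (by norm_num) (by norm_num))
      (hmem 1 (-1) (by norm_num) (by norm_num)))
  have hAB : pr (2 * m + 2) deg κ A B = pr (2 * m + 2) deg κ B A := funext fun i => by
    have hcomm := xiE_comm (l := deg i) (Wm_skew u v) (Wm_skew w z)
    rw [Wm_mul_Wm huw huz hvw hvz,
      Wm_mul_Wm (Ne.symm huw) (Ne.symm hvw) (Ne.symm huz) (Ne.symm hvz), sub_self, map_zero,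
      sub_eq_zero] at hcomm
    rw [pr_apply, pr_apply, hcomm]
  refine (Submodule.smul_mem_iff S0 (show (8 : ℝ) ≠ 0 by norm_num)).1
    (Eq.mp (congrArg (· ∈ S0) ?_) h)
  simp only [map_add, map_smul, LinearMap.add_apply, LinearMap.smul_apply, ← hAB]
  module

end Vale.Agent.P225.Full.Control
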