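import Mathlib

/-!
# P225 control: rotations of harmonic polynomials in complex coordinates

The variables are `z a` (left) and `w a` (right), paired with each other.  `rot i j` is the rotation
generator `X i ∂ (bar j) - X j ∂ (bar i)`.  A nonzero space of harmonic polynomials of degree `l`
stable under the raising rotations contains `z 0 ^ l`, and a space containing `z 0 ^ l` stable under
the lowering rotations is everything.
-/

noncomputable section

namespace Vale.Agent.P225.Full.Control

open MvPolynomial

variable {M : ℕ}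

/-- The variables. -/
abbrev Var (M : ℕ) : Type := Fin M ⊕ Fin M

/-- The paired variable. -/
abbrev bar : Var M → Var M := Sum.swap

/-- Complex polynomials. -/
abbrev Pc (M : ℕ) : Type := MvPolynomial (Var M) ℂ

/-- The rotation generator of two variables. -/
def rot (i j : Var M) : Pc M →ₗ[ℂ] Pc M :=
  (LinearMap.mulLeft ℂ (X i : Pc M)).comp (pderiv (bar j)).toLinearMap -
    (LinearMap.mulLeft ℂ (X j : Pc M)).comp (pderiv (bar i)).toLinearMap

theorem rot_apply (i j : Var M) (f : Pc M) :
    rot i j f = X i * pderiv (bar j) f - X j * pderiv (bar i) f := by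
  simp [rot]

theorem bar_bar (i : Var M) : bar (bar i) = i := Sum.swap_swap i

theorem bar_ne (i : Var M) : bar i ≠ i := by cases i <;> simp [bar]

/-- The pairing of two variables. -/
def pair (i j : Var M) : ℂ := if bar i = j then 1 else 0

theorem pair_comm (i j : Var M) : pair i j = pair j i := by
  simp only [pair]
  by_cases h : bar i = j
  · rw [if_pos h, if_pos (by rw [← h, bar_bar])]
  · rw [if_neg h, if_neg fun h' => h (by rw [← h', bar_bar])]

theorem pderiv_comm (i j : Var M) (f : Pc M) : pderiv i (pderiv j f) = pderiv j (pderiv i f) := by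
  induction f using MvPolynomial.induction_on with
  | C a => simp
  | add p q hp hq => simp [map_add, hp, hq]
  | mul_X p k hp =>
    have c : ∀ a b : Var M, pderiv a (pderiv b (X k : Pc M)) = 0 := fun a b => by
      simp only [pderiv_X, Pi.single_apply]
      split_ifs <;> simp
    simp only [pderiv_mul, map_add, hp, c]
    ring

theorem pderiv2_X_mul (i a b : Var M) (g : Pc M) :
    pderiv a (pderiv b (X i * g)) = (if b = i then pderiv a g else 0) +
      (if a = i then pderiv b g else 0) + X i * pderiv a (pderiv b g) := by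
  have d : ∀ k, pderiv k (X i : Pc M) = if k = i then 1 else 0 := fun k => by
    split_ifs with h
    · rw [h, pderiv_X_self]
    · exact pderiv_X_of_ne (Ne.symm h)
  rw [pderiv_mul, map_add, pderiv_mul, pderiv_mul, d b, d a]
  split_ifs <;> simp <;> ring

theorem rot_mul (i j : Var M) (f g : Pc M) :
    rot i j (f * g) = rot i j f * g + f * rot i j g := by
  simp only [rot_apply, pderiv_mul]
  ring

theorem rot_X (i j k : Var M) : rot i j (X k) = pair j k • (X i : Pc M) - pair i k • X j := by
  have d : ∀ a, pderiv a (X k : Pc M) = if a = k then 1 else 0 := fun a => by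
    split_ifs with h
    · rw [h, pderiv_X_self]
    · exact pderiv_X_of_ne (Ne.symm h)
  rw [rot_apply, d, d]
  simp only [pair]
  split_ifs <;> simp

theorem rot_C (i j : Var M) (a : ℂ) : rot i j (C a) = 0 := by simp [rot_apply]

theorem rot_comm (i j k l : Var M) (f : Pc M) :
    rot i j (rot k l f) - rot k l (rot i j f) =
      pair j k • rot i l f - pair i k • rot j l f - pair j l • rot i k f + pair i l • rot j k f := by
  induction f using MvPolynomial.induction_on with
  | C a => simp [rot_C]
  | add p q hp hq =>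
    simp only [map_add, smul_add]
    linear_combination hp + hq
  | mul_X p u hp =>
    simp only [rot_mul, rot_C, mul_zero, zero_mul, zero_add, add_zero, map_add, map_sub, rot_X,
      mul_sub, smul_sub, smul_add, smul_eq_C_mul] at hp ⊢
    rw [pair_comm j k, pair_comm i k, pair_comm i l, pair_comm j l] at *
    linear_combination X u * hp

/-- One summand of half the Laplacian. -/
def lapAt (a : Fin M) : Pc M →ₗ[ℂ] Pc M :=
  (pderiv (R := ℂ) (Sum.inl a : Var M)).toLinearMap.comp
    (pderiv (R := ℂ) (Sum.inr a : Var M)).toLinearMap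

/-- Half the Laplacian. -/
def lapC (M : ℕ) : Pc M →ₗ[ℂ] Pc M :=
  ∑ a : Fin M, lapAt a

theorem lapC_apply (f : Pc M) :
    lapC M f = ∑ a : Fin M, pderiv (Sum.inl a : Var M) (pderiv (Sum.inr a : Var M) f) :=
  LinearMap.sum_apply _ _ _

theorem two_lapC (f : Pc M) : 2 * lapC M f = ∑ k : Var M, pderiv k (pderiv (bar k) f) := by
  rw [Fintype.sum_sum_type, lapC_apply, two_mul]
  simp only [bar, Sum.swap_inl, Sum.swap_inr]
  rw [Finset.sum_congr rfl fun a _ => pderiv_comm (Sum.inr a : Var M) (Sum.inl a) f]

theorem two_lapC_X_mul (i : Var M) (g : Pc M) :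
    2 * lapC M (X i * g) = 2 * pderiv (bar i) g + X i * (2 * lapC M g) := by
  rw [two_lapC, two_lapC]
  simp only [pderiv2_X_mul, Finset.sum_add_distrib, ← Finset.mul_sum]
  rw [Finset.sum_eq_single (bar i), Finset.sum_eq_single i]
  · rw [bar_bar, if_pos rfl, two_mul]

  · exact fun k _ hk => if_neg hk
  · simp
  · exact fun k _ hk => if_neg fun h => hk (by rw [← h, bar_bar])
  · simp

theorem pderiv_lapC (k : Var M) (f : Pc M) : pderiv k (lapC M f) = lapC M (pderiv k f) := by
  rw [lapC_apply, lapC_apply, map_sum]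
  exact Finset.sum_congr rfl fun a _ => by rw [pderiv_comm, pderiv_comm (Sum.inr a) k]

theorem lapC_rot (i j : Var M) (f : Pc M) : lapC M (rot i j f) = rot i j (lapC M f) := by
  refine mul_left_cancel₀ (two_ne_zero : (2 : Pc M) ≠ 0) ?_
  rw [rot_apply, rot_apply, map_sub, mul_sub, two_lapC_X_mul, two_lapC_X_mul, pderiv_lapC,
    pderiv_lapC, pderiv_comm (bar j) (bar i)]
  ring

theorem isHomogeneous_rot {l : ℕ} (i j : Var M) {f : Pc M} (hf : f.IsHomogeneous l) :
    (rot i j f).IsHomogeneous l := by
  rw [rot_apply]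
  have h : ∀ i j : Var M, (X i * pderiv (bar j) f : Pc M).IsHomogeneous l := by
    intro i j
    rcases Nat.eq_zero_or_pos l with rfl | hl
    · rw [← totalDegree_zero_iff_isHomogeneous, totalDegree_eq_zero_iff_eq_C] at hf
      rw [hf, pderiv_C, mul_zero]
      exact isHomogeneous_zero _ _ _
    · have := (isHomogeneous_X ℂ i).mul (hf.pderiv (i := bar j))
      rwa [show 1 + (l - 1) = l by omega] at this
  exact (h i j).sub (h j i)

/-- Harmonic homogeneous polynomials of degree `l`. -/
def Hc (M l : ℕ) : Submodule ℂ (Pc M) :=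
  homogeneousSubmodule (Var M) ℂ l ⊓ LinearMap.ker (lapC M)

theorem mem_Hc {l : ℕ} {f : Pc M} : f ∈ Hc M l ↔ f.IsHomogeneous l ∧ lapC M f = 0 := by
  simp [Hc]

instance finiteDimensional_Hc (l : ℕ) : FiniteDimensional ℂ (Hc M l) := by
  have : FiniteDimensional ℂ (homogeneousSubmodule (Var M) ℂ l) :=
    Module.Finite.iff_fg.2 (homogeneousSubmodule_fg (Var M) ℂ l)
  exact Submodule.finiteDimensional_of_le inf_le_left

/-- The ring of operators on a shell, spelled out to help instance unification. -/
instance instRingEndHc (l : ℕ) : Ring (Module.End ℂ (Hc M l)) := Module.End.instRing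

/-- The rotation generators on harmonic polynomials. -/
def rotH (l : ℕ) (i j : Var M) : Hc M l →ₗ[ℂ] Hc M l :=
  (rot i j).restrict fun _ hf => mem_Hc.2
    ⟨isHomogeneous_rot i j (mem_Hc.1 hf).1, by rw [lapC_rot, (mem_Hc.1 hf).2, map_zero]⟩

theorem coe_rotH (l : ℕ) (i j : Var M) (f : Hc M l) : (rotH l i j f : Pc M) = rot i j f := rfl

/-- The weight operator of a coordinate. -/
abbrev dia (a : Fin M) : Pc M →ₗ[ℂ] Pc M := rot (Sum.inl a) (Sum.inr a)

/-- The weight of an exponent in a coordinate. -/
def mu (a : Fin M) (s : Var M →₀ ℕ) : ℤ := (s (Sum.inl a) : ℤ) - (s (Sum.inr a) : ℤ)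

theorem coeff_X_mul_pderiv (i : Var M) (f : Pc M) (s : Var M →₀ ℕ) :
    coeff s (X i * pderiv i f) = (s i : ℂ) * coeff s f := by
  classical
  induction f using MvPolynomial.induction_on' with
  | monomial t a =>
    rw [pderiv_monomial, X, monomial_mul, one_mul]
    by_cases h : t i = 0
    · simp only [h, Nat.cast_zero, mul_zero, map_zero, coeff_zero, coeff_monomial]
      split_ifs with h'
      · subst h'; simp [h]
      · simp
    · have e : Finsupp.single i 1 + (t - Finsupp.single i 1) = t := by
        ext k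
        rcases eq_or_ne k i with rfl | hk
        · simp; omega
        · simp [Finsupp.single_eq_of_ne hk]
      rw [e]
      simp only [coeff_monomial]
      split_ifs with h'
      · subst h'; ring
      · ring
  | add p q hp hq => simp [map_add, mul_add, hp, hq]

theorem coeff_dia (a : Fin M) (f : Pc M) (s : Var M →₀ ℕ) :
    coeff s (dia a f) = (mu a s : ℂ) * coeff s f := by
  simp [rot_apply, bar, coeff_X_mul_pderiv, mu, sub_mul]

/-- The positive Hermitian pairing of coefficient vectors. -/
def form (f g : Pc M) : ℂ :=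
  ∑ s ∈ f.support, ((∏ i, (s i).factorial : ℕ) : ℂ) * (starRingEnd ℂ) (coeff s f) * coeff s g

theorem form_eq_sum {f : Pc M} (g : Pc M) {T : Finset (Var M →₀ ℕ)} (h : f.support ⊆ T) :
    form f g =
      ∑ s ∈ T, ((∏ i, (s i).factorial : ℕ) : ℂ) * (starRingEnd ℂ) (coeff s f) * coeff s g := by
  refine Finset.sum_subset h fun s _ hs => ?_
  rw [notMem_support_iff.1 hs]
  simp

theorem form_add_left (f f' g : Pc M) : form (f + f') g = form f g + form f' g := by
  classical
  rw [form_eq_sum g (Finset.subset_union_left : f.support ⊆ f.support ∪ f'.support),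
    form_eq_sum g (Finset.subset_union_right : f'.support ⊆ f.support ∪ f'.support),
    form_eq_sum g (MvPolynomial.support_add : (f + f').support ⊆ f.support ∪ f'.support),
    ← Finset.sum_add_distrib]
  refine Finset.sum_congr rfl fun s _ => ?_
  simp [mul_add, add_mul]

theorem form_smul_left (c : ℂ) (f g : Pc M) : form (c • f) g = (starRingEnd ℂ) c * form f g := by
  classical
  rw [form_eq_sum g (MvPolynomial.support_smul : (c • f).support ⊆ f.support), form, Finset.mul_sum]
  refine Finset.sum_congr rfl fun s _ => ?_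
  simp only [coeff_smul, smul_eq_mul, map_mul]
  ring

theorem form_add_right (f g g' : Pc M) : form f (g + g') = form f g + form f g' := by
  simp [form, mul_add, Finset.sum_add_distrib]

theorem form_smul_right (c : ℂ) (f g : Pc M) : form f (c • g) = c * form f g := by
  simp only [form, coeff_smul, smul_eq_mul, Finset.mul_sum]
  exact Finset.sum_congr rfl fun s _ => by ring

theorem form_sub_left (f f' g : Pc M) : form (f - f') g = form f g - form f' g := by
  have := form_add_left (f - f') f' g
  rw [sub_add_cancel] at this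
  linear_combination -this

theorem form_sub_right (f g g' : Pc M) : form f (g - g') = form f g - form f g' := by
  have := form_add_right f (g - g') g'
  rw [sub_add_cancel] at this
  linear_combination -this

theorem conj_form (f g : Pc M) : (starRingEnd ℂ) (form f g) = form g f := by
  classical
  rw [form_eq_sum g (Finset.subset_union_left : f.support ⊆ f.support ∪ g.support),
    form_eq_sum f (Finset.subset_union_right : g.support ⊆ f.support ∪ g.support), map_sum]
  refine Finset.sum_congr rfl fun s _ => ?_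
  simp [mul_comm, mul_left_comm]

theorem form_monomial (s : Var M →₀ ℕ) (a : ℂ) (g : Pc M) :
    form (monomial s a) g =
      ((∏ i, (s i).factorial : ℕ) : ℂ) * (starRingEnd ℂ) a * coeff s g := by
  classical
  rw [form_eq_sum g support_monomial_subset, Finset.sum_singleton, coeff_monomial, if_pos rfl]

theorem form_self_eq_zero {f : Pc M} (h : form f f = 0) : f = 0 := by
  classical
  have e : form f f = ((∑ s ∈ f.support,
      (∏ i, (s i).factorial : ℕ) * Complex.normSq (coeff s f) : ℝ) : ℂ) := by
    simp only [form, Complex.ofReal_sum, Complex.ofReal_mul, Complex.ofReal_natCast,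
      Complex.normSq_eq_conj_mul_self, mul_assoc]
  rw [e, Complex.ofReal_eq_zero,
    Finset.sum_eq_zero_iff_of_nonneg fun s _ => mul_nonneg (Nat.cast_nonneg _)
      (Complex.normSq_nonneg _)] at h
  refine MvPolynomial.ext _ _ fun s => ?_
  by_cases hs : s ∈ f.support
  · have := h s hs
    simp only [mul_eq_zero, Nat.cast_eq_zero, map_eq_zero] at this
    rcases this with h0 | h0
    · exact absurd h0 (Finset.prod_ne_zero_iff.2 fun i _ => Nat.factorial_ne_zero _)
    · simpa using h0
  · simpa using notMem_support_iff.1 hs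

theorem prod_factorial_add_single (s : Var M →₀ ℕ) (i : Var M) :
    (∏ k, ((s + Finsupp.single i 1 : Var M →₀ ℕ) k).factorial) = (s i + 1) * ∏ k, (s k).factorial := by
  classical
  rw [← Finset.mul_prod_erase _ _ (Finset.mem_univ i),
    ← Finset.mul_prod_erase (Finset.univ : Finset (Var M)) (fun k => (s k).factorial)
      (Finset.mem_univ i), ← mul_assoc]
  congr 1
  · simp [Nat.factorial_succ]
  · refine Finset.prod_congr rfl fun k hk => ?_
    simp [Finsupp.single_eq_of_ne (Finset.mem_erase.1 hk).1]

theorem form_X_mul (i : Var M) (f g : Pc M) : form (X i * f) g = form f (pderiv i g) := by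
  classical
  induction f using MvPolynomial.induction_on' with
  | add p q hp hq => simp [mul_add, form_add_left, hp, hq]
  | monomial t a =>
    rw [X, monomial_mul, one_mul, form_monomial, form_monomial, add_comm (Finsupp.single i 1),
      prod_factorial_add_single]
    have : coeff t (pderiv i g) = ((t i : ℂ) + 1) * coeff (t + Finsupp.single i 1) g := by
      rw [← coeff_X_mul t i (pderiv i g), coeff_X_mul_pderiv,
        add_comm (Finsupp.single i 1) t]
      simp
    rw [this]
    push_cast
    ring

theorem form_rot (i j : Var M) (f g : Pc M) :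
    form (rot i j f) g = form f (rot (bar j) (bar i) g) := by
  have h : ∀ (k : Var M) (f g : Pc M), form (pderiv k f) g = form f (X k * g) := fun k f g => by
    rw [← conj_form, ← form_X_mul, conj_form]
  simp only [rot_apply, bar_bar, form_sub_left, form_sub_right, form_X_mul, h]

variable [NeZero M]

/-- The exponent of the highest vector. -/
def topExp (M l : ℕ) [NeZero M] : Var M →₀ ℕ := Finsupp.single (Sum.inl 0) l

/-- The highest vector. -/
def topPoly (M l : ℕ) [NeZero M] : Pc M := monomial (topExp M l) 1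

theorem topPoly_mem (l : ℕ) : topPoly M l ∈ Hc M l := by
  refine mem_Hc.2 ⟨isHomogeneous_monomial _ (by simp [topExp, Finsupp.degree_single]), ?_⟩
  rw [lapC_apply]
  refine Finset.sum_eq_zero fun a _ => ?_
  rw [topPoly, pderiv_monomial]
  simp [topExp]

theorem form_topPoly (l : ℕ) (g : Pc M) :
    form (topPoly M l) g =
      ((∏ i, (topExp M l i).factorial : ℕ) : ℂ) * coeff (topExp M l) g := by
  simp [topPoly, form_monomial]

theorem form_top_ne_zero (l : ℕ) : form (topPoly M l) (topPoly M l) ≠ 0 := fun h => by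
  have := congrArg (coeff (topExp M l)) (form_self_eq_zero h)
  simp [topPoly] at this

/-- A harmonic polynomial killed by all raising rotations is a multiple of the highest vector. -/
theorem eq_top_of_raised (hM : 2 ≤ M) {l : ℕ} {f : Pc M} (hf : f ∈ Hc M l)
    (h : ∀ j : Var M, j ≠ Sum.inl 0 → j ≠ Sum.inr 0 → rot (Sum.inl 0) j f = 0) :
    f = coeff (topExp M l) f • topPoly M l := by
  classical
  set g := pderiv (Sum.inr 0 : Var M) f with hg
  have hk : ∀ k : Var M, k ≠ Sum.inl 0 → k ≠ Sum.inr 0 →
      X (Sum.inl 0) * pderiv k f = X (bar k) * g := fun k hk1 hk2 => by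
    have := h (bar k) (fun e => hk2 (by rw [← bar_bar k, e]; rfl))
      (fun e => hk1 (by rw [← bar_bar k, e]; rfl))
    rw [rot_apply, bar_bar] at this
    exact sub_eq_zero.1 this
  have hlap : pderiv (Sum.inl 0 : Var M) g +
      ∑ a ∈ Finset.univ.erase (0 : Fin M),
        pderiv (Sum.inl a : Var M) (pderiv (Sum.inr a : Var M) f) = 0 := by
    rw [hg, Finset.add_sum_erase Finset.univ
      (fun a => pderiv (Sum.inl a : Var M) (pderiv (Sum.inr a : Var M) f)) (Finset.mem_univ _),
      ← lapC_apply]
    exact (mem_Hc.1 hf).2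
  have hmul : X (Sum.inl 0) * pderiv (Sum.inl 0 : Var M) g +
      ∑ a ∈ Finset.univ.erase (0 : Fin M), (g + X (Sum.inl a) * pderiv (Sum.inl a : Var M) g) =
        0 := by
    have e := congrArg (X (Sum.inl 0 : Var M) * ·) hlap
    simp only [mul_add, Finset.mul_sum, mul_zero] at e
    refine Eq.trans ?_ e
    congr 1
    refine Finset.sum_congr rfl fun a ha => ?_
    have ha0 : a ≠ 0 := (Finset.mem_erase.1 ha).1
    have := congrArg (pderiv (Sum.inl a : Var M))
      (hk (Sum.inr a) (by simp) (by simpa using ha0))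
    simp only [pderiv_mul, pderiv_X, Pi.single_apply, bar, Sum.swap_inr, Sum.inl.injEq, ha0,
      Ne.symm ha0, if_true, if_false, zero_mul, zero_add, one_mul] at this
    exact this.symm
  have hg0 : g = 0 := by
    refine MvPolynomial.ext _ _ fun s => ?_
    have := congrArg (coeff s) hmul
    simp only [coeff_add, coeff_sum, coeff_X_mul_pderiv, coeff_zero, Finset.sum_add_distrib,
      Finset.sum_const, ← Finset.sum_mul] at this
    rw [coeff_smul, nsmul_eq_mul] at this
    rw [← add_assoc, ← add_mul, ← add_mul] at this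
    rw [coeff_zero]
    refine (mul_eq_zero.1 this).resolve_left fun h0 => ?_
    have h1 : (s (Sum.inl 0) + (Finset.univ.erase (0 : Fin M)).card +
        ∑ a ∈ Finset.univ.erase (0 : Fin M), s (Sum.inl a) : ℕ) = 0 := by
      have : ((s (Sum.inl 0) + (Finset.univ.erase (0 : Fin M)).card +
          ∑ a ∈ Finset.univ.erase (0 : Fin M), s (Sum.inl a) : ℕ) : ℂ) = ((0 : ℕ) : ℂ) := by
        push_cast
        exact h0
      exact Nat.cast_injective this
    rw [Finset.card_erase_of_mem (Finset.mem_univ _), Finset.card_univ, Fintype.card_fin] at h1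
    omega
  have hd : ∀ k : Var M, k ≠ Sum.inl 0 → pderiv k f = 0 := fun k hk1 => by
    by_cases hk2 : k = Sum.inr 0
    · rw [hk2, ← hg, hg0]
    · have := hk k hk1 hk2
      rw [hg0, mul_zero] at this
      exact (mul_eq_zero.1 this).resolve_left (X_ne_zero _)
  refine MvPolynomial.ext _ _ fun s => ?_
  rw [coeff_smul, topPoly, coeff_monomial, smul_eq_mul]
  by_cases hs : topExp M l = s
  · subst hs; simp
  · rw [if_neg hs, mul_zero]
    by_contra hne
    refine hs ?_
    have hsupp : ∀ k : Var M, k ≠ Sum.inl 0 → s k = 0 := fun k hk1 => by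
      have := coeff_X_mul_pderiv k f s
      rw [hd k hk1, mul_zero, coeff_zero] at this
      simpa using (mul_eq_zero.1 this.symm).resolve_right hne
    have hdeg : s.degree = l := by
      rw [Finsupp.degree_eq_weight_one]
      exact (mem_Hc.1 hf).1 hne
    refine Finsupp.ext fun k => ?_
    rcases eq_or_ne k (Sum.inl 0) with rfl | hk1
    · rw [topExp, Finsupp.single_eq_same, ← hdeg, Finsupp.degree_eq_sum,
        Finset.sum_eq_single (Sum.inl 0 : Var M) (fun b _ hb => hsupp b hb) (by simp)]
    · rw [topExp, Finsupp.single_eq_of_ne hk1, hsupp k hk1]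

/-- The first weight is bounded below on the support. -/
def LowMu (f : Pc M) (c : ℤ) : Prop := ∀ s, coeff s f ≠ 0 → c ≤ mu 0 s

theorem lowMu_rot {j : Var M} (hj1 : j ≠ Sum.inl 0) (hj2 : j ≠ Sum.inr 0) {f : Pc M} {c : ℤ}
    (hf : LowMu f c) : LowMu (rot (Sum.inl 0) j f) (c + 1) := by
  classical
  intro s hs
  by_contra hlt
  refine hs ?_
  have hz : ∀ t, mu 0 t < c → coeff t f = 0 := fun t ht => by
    by_contra h
    exact absurd (hf t h) (not_le.2 ht)
  have key : ∀ (i k : Var M) (t : Var M →₀ ℕ),
      coeff t (pderiv k f) = ((t k : ℂ) + 1) * coeff (t + Finsupp.single k 1) f := fun i k t => by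
    rw [← coeff_X_mul t k (pderiv k f), coeff_X_mul_pderiv, add_comm (Finsupp.single k 1) t]
    simp
  rw [rot_apply, coeff_sub, coeff_X_mul', coeff_X_mul']
  have hb1 : bar j ≠ Sum.inl 0 := fun e => hj2 (by rw [← bar_bar j, e]; rfl)
  have hb2 : bar j ≠ Sum.inr 0 := fun e => hj1 (by rw [← bar_bar j, e]; rfl)
  split_ifs with h1 h2 h2
  all_goals
    try rw [key (Sum.inl 0) _ _]
    try rw [key (Sum.inl 0) _ _]
  · rw [hz, hz, mul_zero, mul_zero, sub_zero]
    · have := Finsupp.mem_support_iff.1 h2
      simp only [mu, bar, Sum.swap_inl, Finsupp.coe_add, Finsupp.coe_tsub, Pi.add_apply,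
        Pi.sub_apply, Finsupp.single_apply, if_neg hj1, if_neg hj2] at hlt ⊢
      simp at hlt ⊢
      omega
    · have := Finsupp.mem_support_iff.1 h1
      simp only [mu, Finsupp.coe_add, Finsupp.coe_tsub, Pi.add_apply, Pi.sub_apply,
        Finsupp.single_apply, if_neg hb1, if_neg hb2] at hlt ⊢
      simp at hlt ⊢
      omega
  · rw [hz, mul_zero, sub_zero]
    have := Finsupp.mem_support_iff.1 h1
    simp only [mu, Finsupp.coe_add, Finsupp.coe_tsub, Pi.add_apply, Pi.sub_apply,
      Finsupp.single_apply, if_neg hb1, if_neg hb2] at hlt ⊢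
    simp at hlt ⊢
    omega
  · rw [hz, mul_zero, zero_sub, neg_zero]
    simp only [mu, bar, Sum.swap_inl, Finsupp.coe_add, Finsupp.coe_tsub, Pi.add_apply,
      Pi.sub_apply, Finsupp.single_apply, if_neg hj1, if_neg hj2] at hlt ⊢
    simp at hlt ⊢
    omega
  · simp

/-- A nonzero stable space contains the highest vector. -/
theorem top_mem_of_stable (hM : 2 ≤ M) {l : ℕ} (W : Submodule ℂ (Hc M l))
    (hW : ∀ j : Var M, j ≠ Sum.inl 0 → j ≠ Sum.inr 0 → ∀ f ∈ W, rotH l (Sum.inl 0) j f ∈ W)
    (hne : W ≠ ⊥) :
    ⟨topPoly M l, topPoly_mem l⟩ ∈ W := by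
  classical
  have hbound : ∀ (f : Hc M l) s, coeff s (f : Pc M) ≠ 0 → (-(l : ℤ)) ≤ mu 0 s ∧ mu 0 s ≤ l := by
    intro f s hs
    have h : s.degree = l := by
      rw [Finsupp.degree_eq_weight_one]
      exact (mem_Hc.1 f.2).1 hs
    rw [Finsupp.degree_eq_sum] at h
    have h1 := Finset.single_le_sum (f := fun k => s k) (fun k _ => Nat.zero_le _)
      (Finset.mem_univ (Sum.inl 0 : Var M))
    have h2 := Finset.single_le_sum (f := fun k => s k) (fun k _ => Nat.zero_le _)
      (Finset.mem_univ (Sum.inr 0 : Var M))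
    simp only [mu]
    omega
  suffices H : ∀ (d : ℕ) (c : ℤ), ((l : ℤ) + 1 - c).toNat = d → ∀ f : Hc M l, f ∈ W → f ≠ 0 →
      LowMu (f : Pc M) c → (⟨topPoly M l, topPoly_mem l⟩ : Hc M l) ∈ W by
    obtain ⟨f, hfW, hf0⟩ := W.exists_mem_ne_zero_of_ne_bot hne
    exact H _ (-(l : ℤ)) rfl f hfW hf0 fun s hs => (hbound f s hs).1
  intro d
  induction d using Nat.strong_induction_on with
  | _ d ih =>
    intro c hd f hfW hf0 hlow
    obtain ⟨s, hs⟩ : ∃ s, coeff s (f : Pc M) ≠ 0 := by
      by_contra hall
      push Not at hall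
      exact hf0 (Subtype.ext (MvPolynomial.ext _ _ (by simpa using hall)))
    have hc : c ≤ l := (hlow s hs).trans (hbound f s hs).2
    by_cases hall : ∀ j : Var M, j ≠ Sum.inl 0 → j ≠ Sum.inr 0 → rot (Sum.inl 0) j (f : Pc M) = 0
    · have e := eq_top_of_raised hM f.2 hall
      have hne' : coeff (topExp M l) (f : Pc M) ≠ 0 := fun h0 => hf0 (Subtype.ext (by
        rw [e, h0, zero_smul]; rfl))
      refine (congrArg (· ∈ W) (Subtype.ext ?_)).mp
        (W.smul_mem (coeff (topExp M l) (f : Pc M))⁻¹ hfW)
      show (coeff (topExp M l) (f : Pc M))⁻¹ • (f : Pc M) = topPoly M l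
      conv_lhs => arg 2; rw [e]
      rw [smul_smul, inv_mul_cancel₀ hne', one_smul]
    · push Not at hall
      obtain ⟨j, hj1, hj2, hj3⟩ := hall
      exact ih _ (by omega) (c + 1) rfl (rotH l (Sum.inl 0) j f) (hW j hj1 hj2 f hfW)
        (fun h => hj3 (congrArg Subtype.val h)) (lowMu_rot hj1 hj2 hlow)

/-- A proper subspace has a nonzero orthogonal vector for any sesquilinear pairing. -/
theorem exists_orth {E : Type*} [AddCommGroup E] [Module ℂ E] [FiniteDimensional ℂ E]
    (B : E → E → ℂ) (hadd : ∀ x y v, B (x + y) v = B x v + B y v)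
    (hsmul : ∀ c x v, B (c • x) v = (starRingEnd ℂ) c * B x v)
    (hadd' : ∀ x v w, B x (v + w) = B x v + B x w) (hsmul' : ∀ c x v, B x (c • v) = c * B x v)
    {V : Submodule ℂ E} (hV : V ≠ ⊤) : ∃ v : E, v ≠ 0 ∧ ∀ x ∈ V, B x v = 0 := by
  let b := Module.finBasis ℂ V
  let P : E →ₗ[ℂ] Fin (Module.finrank ℂ V) → ℂ :=
    { toFun := fun v k => B (b k : E) v
      map_add' := fun v v' => funext fun k => hadd' _ _ _
      map_smul' := fun c v => funext fun k => hsmul' _ _ _ }
  have hker : LinearMap.ker P ≠ ⊥ := LinearMap.ker_ne_bot_of_finrank_lt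
    (by simpa using Submodule.finrank_lt hV)
  obtain ⟨v, hv, hv0⟩ := Submodule.exists_mem_ne_zero_of_ne_bot hker
  refine ⟨v, hv0, fun x hx => ?_⟩
  have hz : B (0 : E) v = 0 := by
    have := hsmul 0 0 v
    rwa [zero_smul, map_zero, zero_mul] at this
  suffices H : ∀ y : V, B (y : E) v = 0 from H ⟨x, hx⟩
  intro y
  induction b.mem_span y using Submodule.span_induction with
  | mem y hy => obtain ⟨k, rfl⟩ := hy; exact congrFun (LinearMap.mem_ker.1 hv) k
  | zero => exact hz
  | add y z _ _ hy hz => rw [Submodule.coe_add, hadd, hy, hz, add_zero]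
  | smul a y _ hy => rw [Submodule.coe_smul, hsmul, hy, mul_zero]

/-- The pairing restricted to harmonic polynomials. -/
def formH (l : ℕ) (x v : Hc M l) : ℂ := form (x : Pc M) (v : Pc M)

theorem formH_eq {l : ℕ} (x v : Hc M l) : formH l x v = form (x : Pc M) (v : Pc M) := rfl

/-- The orthogonal complement of a space of harmonic polynomials. -/
def orthH {l : ℕ} (V : Submodule ℂ (Hc M l)) : Submodule ℂ (Hc M l) where
  carrier := {u | ∀ x ∈ V, formH l x u = 0}
  add_mem' := fun {u w} hu hw x hx => by
    rw [formH_eq, Submodule.coe_add, form_add_right, ← formH_eq, ← formH_eq, hu x hx, hw x hx,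
      add_zero]
  zero_mem' := fun x _ => by simp [formH_eq, form]
  smul_mem' := fun c u hu x hx => by
    rw [formH_eq, Submodule.coe_smul, form_smul_right, ← formH_eq, hu x hx, mul_zero]

theorem mem_orthH {l : ℕ} (V : Submodule ℂ (Hc M l)) (u : Hc M l) :
    u ∈ orthH V ↔ ∀ x ∈ V, formH l x u = 0 := Iff.rfl

theorem exists_formH_orth {l : ℕ} {V : Submodule ℂ (Hc M l)} (hV : V ≠ ⊤) :
    orthH V ≠ ⊥ := by
  obtain ⟨v, hv0, hv⟩ := exists_orth (formH l) (fun x y v => form_add_left _ _ _)
    (fun c x v => form_smul_left _ _ _) (fun x v w => form_add_right _ _ _)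
    (fun c x v => form_smul_right _ _ _) hV
  exact (Submodule.ne_bot_iff _).2 ⟨v, (mem_orthH V v).2 hv, hv0⟩

/-- A stable space containing the highest vector is everything. -/
theorem eq_top_of_stable (hM : 2 ≤ M) {l : ℕ} (V : Submodule ℂ (Hc M l))
    (hV : ∀ i j : Var M, i ≠ Sum.inl 0 → j ≠ Sum.inl 0 → ∀ f ∈ V, rotH l i j f ∈ V) (htop : ⟨topPoly M l, topPoly_mem l⟩ ∈ V) :
    V = ⊤ := by
  by_contra hne
  have hW : ∀ j : Var M, j ≠ Sum.inl 0 → j ≠ Sum.inr 0 →
      ∀ u ∈ orthH V, rotH l (Sum.inl 0) j u ∈ orthH V := fun j _ hj u hu x hx => by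
    have := (mem_orthH V u).1 hu _ (hV (bar j) (bar (Sum.inl 0))
      (fun e => hj (by rw [← bar_bar j, e]; rfl)) (by simp [bar]) x hx)
    rw [formH_eq, coe_rotH, form_rot, bar_bar, bar_bar] at this
    rw [formH_eq, coe_rotH]
    exact this
  have h := (mem_orthH V _).1 (top_mem_of_stable hM (orthH V) hW (exists_formH_orth hne)) _ htop
  exact form_top_ne_zero l h

end Vale.Agent.P225.Full.Control
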